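import Vale.Agent.P148.R2.H144.T3b

/-!
# Energy transfer (P148, module T3), part g: reduction of the input to one square of side one

`ME_of_unit`: by scaling it is enough to know that the missing energy of ONE square of side one
tends to zero as the intensity tends to infinity. `ME_mul`: the input does not depend on a constant
factor of the weight.
-/

open MeasureTheory Set Metric Topology Filter ProbabilityTheory
open scoped ENNReal NNReal

namespace Vale.Agent.P148.R2.H144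

open H592 H184 _root_.P148 _root_.P148.H729

universe u

section
variable {Ω : Type u} [MeasurableSpace Ω] {P : Measure Ω} {S : Ω → Set Pt} {lam : ℝ≥0}

theorem sim_poisson' (h : IsColouredPoisson P S lam) {r : ℝ≥0} (hr : r ≠ 0) (v : ℂ) :
    IsColouredPoisson P (fun ω => simP r v '' S ω) (lam / r ^ 2) := by
  have h1 := scale_poisson h hr
  have h2 := iso_poisson h1 (IsometryEquiv.addRight v) (Equiv.refl Bool)
  simp_rw [simP_image]
  exact h2

end

theorem EQ_mul (X Q : Set ℂ) (Θ : Dt → ℂ) (r : ℝ) :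
    EQ X Q (fun e => r * Θ e) = ENNReal.ofReal (r ^ 2) * EQ X Q Θ := by
  classical
  unfold EQ
  rw [← ENNReal.tsum_mul_left]
  refine tsum_congr fun d => ?_
  split_ifs
  · rw [norm_mul, mul_pow, Complex.norm_real, Real.norm_eq_abs, sq_abs,
      ENNReal.ofReal_mul (by positivity)]
  · rw [mul_zero]

/-- Equivariance of the energy of the local faces. -/
theorem EQ_sim {r : ℝ} (hr : 0 < r) (v : ℂ) (X Q : Set ℂ) {τ : ℂ} {κ : ℝ} {Θ : Dt → ℂ}
    (hΘ : Wt τ κ Θ) :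
    EQ (sim r v '' X) (sim r v '' Q) Θ = ENNReal.ofReal (r ^ 2) * EQ X Q Θ := by
  rw [(tr_sim hr v X Q (c := fun _ => true) (c' := fun _ => true) fun _ _ => rfl).EQ_eq Θ]
  simp_rw [hΘ.sim r v _ hr]
  rw [EQ_mul]

/-- **Scaling**: one square of side one is enough. -/
theorem ME_of_unit {τ : ℂ} {κ : ℝ} {Θ : Dt → ℂ} (hΘ : Wt τ κ Θ) (x₀ : ℂ)
    (h : ∀ δ : ℝ, 0 < δ → ∃ K : ℝ, 0 < K ∧ ∀ (Ω : Type u) [MeasurableSpace Ω] (P : Measure Ω)
      [IsProbabilityMeasure P] (S : Ω → Set Pt) (lam : ℝ≥0), IsColouredPoisson P S lam →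
      K ≤ lam → ∫⁻ ω, EQ (pts (S ω)) (sqr x₀ 1) Θ ∂P ≤
        4 * ∫⁻ ω, SC (sqr x₀ 1) Θ (S ω) ∂P + ENNReal.ofReal δ) : ME.{u} Θ := by
  intro δ hδ
  obtain ⟨K, hK0, hK⟩ := h δ hδ
  refine ⟨K, hK0, ?_⟩
  intro Ω _ P _ S lam hS x L hL hKL
  set r : ℝ := L⁻¹ with hr
  have hr0 : 0 < r := by positivity
  set v : ℂ := x₀ - r * x with hv
  have hrn : (Real.toNNReal r) ≠ 0 := by
    have := Real.toNNReal_pos.2 hr0
    exact this.ne'
  have hcoe : ((Real.toNNReal r : ℝ≥0) : ℝ) = r := Real.coe_toNNReal _ hr0.le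
  have h1 := sim_poisson' hS hrn v
  rw [hcoe] at h1
  have h2 : K ≤ ((lam / (Real.toNNReal r) ^ 2 : ℝ≥0) : ℝ) := by
    rw [NNReal.coe_div, NNReal.coe_pow, hcoe, hr]
    have : (lam : ℝ) / L⁻¹ ^ 2 = lam * L ^ 2 := by field_simp
    rw [this]
    exact hKL
  have h3 := hK Ω P _ _ h1 h2
  have e0 : sim r v x = x₀ := by
    unfold sim
    rw [hv]
    ring
  have e1 : sim r v '' sqr x L = sqr x₀ 1 := by
    have := sim_image_sqr hr0 v x L
    rw [e0] at this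
    rw [this, hr, inv_mul_cancel₀ hL.ne']
  have e2 : ∀ ω, EQ (pts (simP r v '' S ω)) (sqr x₀ 1) Θ =
      ENNReal.ofReal (r ^ 2) * EQ (pts (S ω)) (sqr x L) Θ := by
    intro ω
    rw [← e1, pts_simP, EQ_sim hr0 v _ _ hΘ]
  have e3 : ∀ ω, SC (sqr x₀ 1) Θ (simP r v '' S ω) =
      ENNReal.ofReal (r ^ 2) * SC (sqr x L) Θ (S ω) := by
    intro ω
    rw [← e1, SC_sim hr0 v _ hΘ (finite_window hS (isBounded_sqr x L) ω)]
  rw [lintegral_congr e2, lintegral_congr e3,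
    lintegral_const_mul' _ _ ENNReal.ofReal_ne_top,
    lintegral_const_mul' _ _ ENNReal.ofReal_ne_top] at h3
  have hL2 : ENNReal.ofReal (L ^ 2) * ENNReal.ofReal (r ^ 2) = 1 := by
    rw [← ENNReal.ofReal_mul (by positivity), hr]
    have : L ^ 2 * L⁻¹ ^ 2 = 1 := by field_simp
    rw [this, ENNReal.ofReal_one]
  calc ∫⁻ ω, EQ (pts (S ω)) (sqr x L) Θ ∂P
      = ENNReal.ofReal (L ^ 2) * (ENNReal.ofReal (r ^ 2) *
          ∫⁻ ω, EQ (pts (S ω)) (sqr x L) Θ ∂P) := by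
        rw [← mul_assoc, hL2, one_mul]
    _ ≤ ENNReal.ofReal (L ^ 2) * (4 * (ENNReal.ofReal (r ^ 2) *
          ∫⁻ ω, SC (sqr x L) Θ (S ω) ∂P) + ENNReal.ofReal δ) := by gcongr
    _ = 4 * ((ENNReal.ofReal (L ^ 2) * ENNReal.ofReal (r ^ 2)) *
          ∫⁻ ω, SC (sqr x L) Θ (S ω) ∂P) + ENNReal.ofReal (L ^ 2) * ENNReal.ofReal δ := by ring
    _ = 4 * ∫⁻ ω, SC (sqr x L) Θ (S ω) ∂P + ENNReal.ofReal (δ * L ^ 2) := by
        rw [hL2, one_mul, ← ENNReal.ofReal_mul (by positivity), mul_comm (L ^ 2) δ]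

/-- Multiplication of the weight by a complex constant. -/
theorem gg_cmul (X Q : Set ℂ) (c : ℂ → Bool) (Θ : Dt → ℂ) (a : ℂ) (d : Dt) :
    gg X Q c (fun e => a * Θ e) d = ‖a‖ ^ 2 * gg X Q c Θ d := by
  have h1 : W X Q c (fun e => a * Θ e) d = a * W X Q c Θ d := by
    unfold W
    simp_rw [← smul_eq_mul]
    rw [smul_finsum]
    refine finsum_congr fun e => ?_
    rw [smul_finsum]
  unfold gg
  rw [h1, norm_mul, mul_pow]
  ring

theorem SC_cmul (Q : Set ℂ) (Θ : Dt → ℂ) (a : ℂ) (T : Set Pt) :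
    SC Q (fun e => a * Θ e) T = ENNReal.ofReal (‖a‖ ^ 2) * SC Q Θ T := by
  classical
  unfold SC SG SQ
  split_ifs
  · rw [← ENNReal.tsum_mul_left]
    refine tsum_congr fun d => ?_
    rw [gg_cmul, ENNReal.ofReal_mul (by positivity)]
  · rw [mul_zero]

theorem EQ_cmul (X Q : Set ℂ) (Θ : Dt → ℂ) (a : ℂ) :
    EQ X Q (fun e => a * Θ e) = ENNReal.ofReal (‖a‖ ^ 2) * EQ X Q Θ := by
  classical
  unfold EQ
  rw [← ENNReal.tsum_mul_left]
  refine tsum_congr fun d => ?_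
  split_ifs
  · rw [norm_mul, mul_pow, ENNReal.ofReal_mul (by positivity)]
  · rw [mul_zero]

/-- The input for a multiple of the weight by a number of modulus one. -/
theorem ME_unit_mul {Θ : Dt → ℂ} {a : ℂ} (ha : ‖a‖ = 1) (h : ME.{u} Θ) :
    ME.{u} (fun e => a * Θ e) := by
  intro δ hδ
  obtain ⟨K, hK0, hK⟩ := h δ hδ
  refine ⟨K, hK0, ?_⟩
  intro Ω _ P _ S lam hS x L hL hKL
  have := hK Ω P S lam hS x L hL hKL
  simp_rw [EQ_cmul, SC_cmul, ha, one_pow, ENNReal.ofReal_one, one_mul]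
  exact this

end Vale.Agent.P148.R2.H144
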