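import Vale.Agent.P148.R2.H144.T3f
import Vale.Agent.P148.R2.H144.T3g

/-!
# Energy transfer (P148, module T3), part h: final forms
-/

open MeasureTheory Set Metric Topology Filter ProbabilityTheory
open scoped ENNReal NNReal

namespace Vale.Agent.P148.R2.H144

open H592 H184 H203 _root_.P148 _root_.P148.H729
open Vale.Agent.P148.R2.H219 (tau)

universe u

/-- The missing energy of one square of side one tends to zero as the intensity tends to
infinity. -/
def MEU (x₀ : ℂ) (Θ : Dt → ℂ) : Prop :=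
  ∀ δ : ℝ, 0 < δ → ∃ K : ℝ, 0 < K ∧ ∀ (Ω : Type u) [MeasurableSpace Ω] (P : Measure Ω)
    [IsProbabilityMeasure P] (S : Ω → Set Pt) (lam : ℝ≥0), IsColouredPoisson P S lam →
    K ≤ lam → ∫⁻ ω, EQ (pts (S ω)) (sqr x₀ 1) Θ ∂P ≤
      4 * ∫⁻ ω, SC (sqr x₀ 1) Θ (S ω) ∂P + ENNReal.ofReal δ

theorem ME_pd_of_th (h : ME.{u} (th tau)) : ME.{u} pd := by
  have e : pd = fun d => tau * th tau d := funext pd_eq
  rw [e]
  exact ME_unit_mul norm_tau h

/-- **T3, final form.** -/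
theorem lln_of_MEU {x₀ : ℂ} (h : MEU.{u} x₀ (th tau)) : F.LLNStmt.{u} :=
  lln_of_ME (ME_pd_of_th (ME_of_unit (wt_th tau_root) x₀ h))

end Vale.Agent.P148.R2.H144
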