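import Vale.Agent.P148.R2.H678.Cl
import Vale.Agent.P148.R2.H959.Far
import Vale.Agent.P148.R2.H995.Ring

/-!
# P148, row W1: far parts of the rims of the hubs

`fo k` : the points of the outer rim of the gate `k` which are joined to the hull off the outer core;
`fi k` : the same for the inner rim. They are connected, and the links of the comb (rails, tooth,
radial corridor) join them.
-/

open Set Relation Metric

namespace Vale.Agent.P148.R2.H144.Far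

open Vale.Agent.P148.R2.N (ms nc gateC gbox cell ms_pos)
open Vale.Agent.P148.R2.H592 (HullTri nbr nbr_symm ConnIn)
open Vale.Agent.P148.R2.H959 (Jn bd far_conn escape)
open Vale.Agent.P148.R2.H678
open Vale.Agent.P148.R2.H995 (nsup prad)

/-! ### generic part -/

/-- The points joined to `x` are joined to `x` inside their own set. -/
theorem jn_self {X Y : Set ℂ} {x y : ℂ} (h : Jn X Y x y) (hx : x ∈ Y) :
    Jn X {z | z ∈ Y ∧ Jn X Y x z} x y := by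
  have key : y ∈ {z | z ∈ Y ∧ Jn X Y x z} ∧ Jn X {z | z ∈ Y ∧ Jn X Y x z} x y := by
    induction h with
    | refl => exact ⟨⟨hx, ReflTransGen.refl⟩, ReflTransGen.refl⟩
    | tail _ h1 ih =>
      have h2 := ih.1.2.trans (Jn.single h1.1 h1.2.1 h1.2.2)
      exact ⟨⟨h1.2.2, h2⟩, ih.2.tail ⟨h1.1, ih.1, h1.2.2, h2⟩⟩
  exact key.2

/-- The far part of the boundary of `K`. -/
def frim (X : Set ℂ) (o : ℂ) (K : Set ℂ) : Set ℂ := {v | v ∈ bd X K ∧ Jn X (X \ K) v o}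

section gen

variable {X : Set ℂ} {b : ZMod 3 → ℂ} {o p : ℂ} {r ρ : ℝ} {C K : Set ℂ}

theorem bd_sub : bd X K ⊆ X \ K := fun _ h => ⟨h.1, h.2.1⟩

theorem frim_sub_bd : frim X o K ⊆ bd X K := fun _ h => h.1

theorem frim_sub : frim X o K ⊆ X \ K := fun _ h => bd_sub h.1

theorem bd_core : bd X (core (nbr X) (X ∩ ball p r) C) = rim (nbr X) (X ∩ ball p r) C := by
  ext v
  constructor
  · rintro ⟨-, h2, u, hu, huv⟩
    exact ⟨hub_step hu (nbr_symm huv), h2⟩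
  · intro h
    obtain ⟨u, hu, huv⟩ := rim_nbr h
    exact ⟨hub_sub_X h.1, h.2, u, hu, nbr_symm huv⟩

theorem frim_sub_rim : frim X o (core (nbr X) (X ∩ ball p r) C) ⊆ rim (nbr X) (X ∩ ball p r) C := by
  intro v hv
  rw [← bd_core]
  exact hv.1

/-- The far part of the boundary of a connected set is connected. -/
theorem frim_conn (h : HullTri X b) (hK : ConnIn X K) {x y : ℂ} (hx : x ∈ frim X o K)
    (hy : y ∈ frim X o K) : Jn X (frim X o K) x y := by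
  have h1 : Jn X (X \ K) x y := hx.2.trans hy.2.symm
  refine (jn_self (far_conn h hK hx.1 hy.1 h1) hx.1).mono ?_
  rintro z ⟨hz, hxz⟩
  exact ⟨hz, (hxz.symm.mono bd_sub).trans hx.2⟩

/-- A site off a closed square is joined to the hull off the square. -/
theorem escape_box (h : HullTri X b) (hb : ∀ j, ρ < nsup (b j - p)) {z : ℂ} (hz : z ∈ X)
    (hzp : ρ < nsup (z - p)) : Jn X (X \ {w | nsup (w - p) ≤ ρ}) z (b 0) := by
  obtain ⟨t, ht1, ht2, ht3⟩ : ∃ t, ρ < t ∧ t ≤ nsup (z - p) ∧ ∀ j, t ≤ nsup (b j - p) := by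
    refine ⟨min (nsup (z - p)) (min (nsup (b 0 - p)) (min (nsup (b 1 - p)) (nsup (b 2 - p)))),
      ?_, min_le_left _ _, fun j => ?_⟩
    · exact lt_min hzp (lt_min (hb 0) (lt_min (hb 1) (hb 2)))
    · refine (min_le_right _ _).trans ?_
      fin_cases j
      · exact min_le_left _ _
      · exact (min_le_right _ _).trans (min_le_left _ _)
      · exact (min_le_right _ _).trans (min_le_right _ _)
  have hcv : Convex ℝ {w : ℂ | nsup (w - p) < t} := by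
    have h1 := (H995.convex_nsup_lt t).translate_preimage_right (-p)
    have h2 : {w : ℂ | nsup (w - p) < t} = (fun z => z + -p) ⁻¹' {z | nsup z < t} := by
      ext w; simp [sub_eq_add_neg]
    rw [h2]
    have h3 : (fun z : ℂ => z + -p) ⁻¹' {z | nsup z < t} =
        (fun z : ℂ => -p + z) ⁻¹' {z | nsup z < t} := by
      ext w; simp [add_comm]
    rw [h3]; exact h1
  have hop : IsOpen {w : ℂ | nsup (w - p) < t} :=
    (H995.isOpen_nsup_lt t).preimage (continuous_id.sub continuous_const)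
  have h1 := escape h hcv hop (fun j hj => absurd (show nsup (b j - p) < t from hj)
    (not_lt.2 (ht3 j))) hz (fun hj => absurd (show nsup (z - p) < t from hj) (not_lt.2 ht2))
  refine h1.mono ?_
  rintro w ⟨hw, hw2⟩
  refine ⟨hw, fun h3 => hw2 ?_⟩
  exact lt_of_le_of_lt (show nsup (w - p) ≤ ρ from h3) ht1

/-- A path of sites as a join. -/
theorem jn_path {Y : Set ℂ} {n : ℕ} {v : ℕ → ℂ} (h1 : ∀ i < n, nbr X (v i) (v (i + 1)))
    (h2 : ∀ i ≤ n, v i ∈ Y) : Jn X Y (v 0) (v n) := by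
  have key : ∀ m ≤ n, Jn X Y (v 0) (v m) := by
    intro m
    induction m with
    | zero => intro _; exact ReflTransGen.refl
    | succ m ih => intro hm; exact (ih (by omega)).tail ⟨h1 m (by omega), h2 m (by omega), h2 _ hm⟩
  exact key n le_rfl

/-- The start of a path which leaves the square of the hub off the hub is far. -/
theorem far_start (h : HullTri X b)
    (hs : hub (nbr X) (X ∩ ball p r) C ⊆ {w | nsup (w - p) ≤ ρ})
    (hb : ∀ j, ρ < nsup (b j - p)) {n : ℕ} {v : ℕ → ℂ}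
    (h1 : ∀ i < n, nbr X (v i) (v (i + 1)))
    (h2 : v 0 ∈ rim (nbr X) (X ∩ ball p r) C)
    (h3 : v n ∈ X) (h4 : ρ < nsup (v n - p))
    (h5 : ∀ i, 0 < i → i < n → v i ∉ hub (nbr X) (X ∩ ball p r) C) :
    v 0 ∈ frim X (b 0) (core (nbr X) (X ∩ ball p r) C) := by
  have h0 : v 0 ∈ bd X (core (nbr X) (X ∩ ball p r) C) := by rw [bd_core]; exact h2
  refine ⟨h0, ?_⟩
  have hoff : ∀ w : ℂ, ρ < nsup (w - p) → w ∉ core (nbr X) (X ∩ ball p r) C := by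
    intro w hw hc
    exact absurd (show nsup (w - p) ≤ ρ from hs (core_sub_hub hc)) (not_le.2 hw)
  have h6 : Jn X (X \ core (nbr X) (X ∩ ball p r) C) (v 0) (v n) := by
    refine jn_path h1 fun i hi => ?_
    rcases Nat.eq_zero_or_pos i with rfl | hi0
    · exact ⟨h0.1, h0.2.1⟩
    · rcases hi.lt_or_eq with hi1 | rfl
      · exact ⟨(h1 i hi1).1, fun hc => h5 i hi0 hi1 (core_sub_hub hc)⟩
      · exact ⟨h3, hoff _ h4⟩
  refine h6.trans ((escape_box h hb h3 h4).mono ?_)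
  rintro w ⟨hw, hw2⟩
  exact ⟨hw, hoff w (not_le.1 hw2)⟩

/-- The end of a path which comes from the outside of the square of the hub off the hub is far. -/
theorem far_end (h : HullTri X b)
    (hs : hub (nbr X) (X ∩ ball p r) C ⊆ {w | nsup (w - p) ≤ ρ})
    (hb : ∀ j, ρ < nsup (b j - p)) {n : ℕ} {v : ℕ → ℂ}
    (h1 : ∀ i < n, nbr X (v i) (v (i + 1)))
    (h2 : v n ∈ rim (nbr X) (X ∩ ball p r) C)
    (h3 : v 0 ∈ X) (h4 : ρ < nsup (v 0 - p))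
    (h5 : ∀ i, 0 < i → i < n → v i ∉ hub (nbr X) (X ∩ ball p r) C) :
    v n ∈ frim X (b 0) (core (nbr X) (X ∩ ball p r) C) := by
  have h6 := far_start h hs hb (n := n) (v := fun i => v (n - i))
    (fun i hi => by
      have h7 : n - i = (n - (i + 1)) + 1 := by omega
      show nbr X (v (n - i)) (v (n - (i + 1)))
      rw [h7]
      exact nbr_symm (h1 (n - (i + 1)) (by omega)))
    (by simpa using h2) (by simpa using h3) (by simpa using h4)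
    (fun i hi hin => h5 (n - i) (by omega) (by omega))
  simpa using h6

end gen

/-! ### the hubs of the comb -/

section comb

variable {M : ℕ} {X : Set ℂ} {b : ZMod 3 → ℂ} {Bl₁ Wh₁ Bl₂ Wh₂ : Set ℂ} {k : ℕ}

/-- The core of the outer hub. -/
def oc (M : ℕ) (X Bl₁ : Set ℂ) (k : ℕ) : Set ℂ := core (nbr X) (X ∩ ball (pout M k) (sd M)) Bl₁

/-- The core of the inner hub. -/
def ic (M : ℕ) (X Wh₁ : Set ℂ) (k : ℕ) : Set ℂ := core (nbr X) (X ∩ ball (pin M k) (sd M)) Wh₁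

/-- The far part of the outer rim. -/
def fo (M : ℕ) (X Bl₁ : Set ℂ) (o : ℂ) (k : ℕ) : Set ℂ := frim X o (oc M X Bl₁ k)

/-- The far part of the inner rim. -/
def fi (M : ℕ) (X Wh₁ : Set ℂ) (o : ℂ) (k : ℕ) : Set ℂ := frim X o (ic M X Wh₁ k)

theorem fo_mod (o : ℂ) (k : ℕ) : fo M X Bl₁ o (k % nc M) = fo M X Bl₁ o k := by
  unfold fo oc; rw [H995.pout_mod]

theorem fi_mod (o : ℂ) (k : ℕ) : fi M X Wh₁ o (k % nc M) = fi M X Wh₁ o k := by
  unfold fi ic; rw [H995.pin_mod]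

theorem fo_rim {o : ℂ} : fo M X Bl₁ o k ⊆ outRim M X Bl₁ k := frim_sub_rim

theorem fi_rim {o : ℂ} : fi M X Wh₁ o k ⊆ inRim M X Wh₁ k := frim_sub_rim

theorem fo_hub {o : ℂ} : fo M X Bl₁ o k ⊆ outHub M X Bl₁ k := fun _ h => (fo_rim h).1

theorem fi_hub {o : ℂ} : fi M X Wh₁ o k ⊆ inHub M X Wh₁ k := fun _ h => (fi_rim h).1

theorem fo_sub_X {o : ℂ} : fo M X Bl₁ o k ⊆ X := fun _ h => (frim_sub h).1

theorem fi_sub_X {o : ℂ} : fi M X Wh₁ o k ⊆ X := fun _ h => (frim_sub h).1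

theorem fo_Ex {o : ℂ} : fo M X Bl₁ o k ⊆ Ex M X Bl₁ Wh₁ := fun _ h => outRim_sub_Ex k (fo_rim h)

theorem fi_Ex {o : ℂ} : fi M X Wh₁ o k ⊆ Ex M X Bl₁ Wh₁ := fun _ h => inRim_sub_Ex k (fi_rim h)

/-- The far part of the outer rim is connected. -/
theorem fo_conn (h : HullTri X b) {o x y : ℂ} (hx : x ∈ fo M X Bl₁ o k) (hy : y ∈ fo M X Bl₁ o k) :
    Jn X (fo M X Bl₁ o k) x y := frim_conn h (connIn_core h.fin _ _) hx hy

/-- The far part of the inner rim is connected. -/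
theorem fi_conn (h : HullTri X b) {o x y : ℂ} (hx : x ∈ fi M X Wh₁ o k) (hy : y ∈ fi M X Wh₁ o k) :
    Jn X (fi M X Wh₁ o k) x y := frim_conn h (connIn_core h.fin _ _) hx hy

theorem nsup_add_le (z w : ℂ) : nsup (z + w) ≤ nsup z + nsup w := by
  unfold H995.nsup
  refine max_le ?_ ?_
  · rw [Complex.add_re]
    exact (abs_add_le _ _).trans (add_le_add (le_max_left _ _) (le_max_left _ _))
  · rw [Complex.add_im]
    exact (abs_add_le _ _).trans (add_le_add (le_max_right _ _) (le_max_right _ _))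

theorem hb_lt_of_far (hM : 0 < M) {p z : ℂ} (hp : p ∈ gbox M k) (hz : 1 + ms M ≤ nsup z) :
    hb M < nsup (z - p) := by
  have h1 := (gbox_nsup hM hp).2
  have h2 : nsup z ≤ nsup (z - p) + nsup p := by
    have := nsup_add_le (z - p) p
    rwa [sub_add_cancel] at this
  have h3 := ms_pos hM
  unfold hb
  linarith

theorem hb_pos (hM : 0 < M) : 0 ≤ hb M := by
  have := ms_pos hM; unfold hb; linarith

theorem pout_hbox (hM : 0 < M) (k : ℕ) : pout M k ∈ hbox M (pout M k) := by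
  show nsup (pout M k - pout M k) ≤ hb M
  rw [sub_self]
  simpa [H995.nsup] using hb_pos hM

theorem pin_hbox (hM : 0 < M) (k : ℕ) : pin M k ∈ hbox M (pin M k) := by
  show nsup (pin M k - pin M k) ≤ hb M
  rw [sub_self]
  simpa [H995.nsup] using hb_pos hM

theorem pout_gbox (hM : 0 < M) (k : ℕ) : pout M k ∈ gbox M k :=
  H995.hbox_pout_sub hM k (pout_hbox hM k)

theorem pin_gbox (hM : 0 < M) (k : ℕ) : pin M k ∈ gbox M k :=
  H995.hbox_pin_sub hM k (pin_hbox hM k)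

theorem off_box {A : Set ℂ} {p z : ℂ} (h : Disjoint (hbox M p) A) (hz : z ∈ A) :
    hb M < nsup (z - p) := not_le.1 fun h1 => Set.disjoint_left.1 h h1 hz

/-- **Outer rail.** The far parts of two consecutive outer rims are joined by the white rail. -/
theorem up_fo (h : HullTri X b) (hM : 0 < M) (hG : HubsGood M X Bl₁ Wh₁) (hW : Wh₂ ⊆ X)
    (hb : ∀ j, 1 + ms M ≤ nsup (b j)) (hR : Rails M X Bl₂ Wh₂ k) :
    ∃ x ∈ fo M X Bl₁ (b 0) k, ∃ y ∈ fo M X Bl₁ (b 0) (k + 1),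
      Jn X (fo M X Bl₁ (b 0) k ∪ fo M X Bl₁ (b 0) (k + 1) ∪
        ((Wh₂ ∩ CBox M (pout M k) (pout M (k + 1))) \ Ex M X Bl₁ Wh₁)) x y := by
  obtain ⟨n, v, h0, h1, h2, h3, h4, h5⟩ := hG.up_link hM hW hR
  have hd := disj_pout_pout hM (succ_mod_ne hM k)
  have e1 : v 0 ∈ fo M X Bl₁ (b 0) k :=
    far_start h (hG.outSub k) (fun j => hb_lt_of_far hM (pout_gbox hM k) (hb j)) h1 h2
      (hub_sub_X h3.1) (off_box hd (hG.outSub (k + 1) h3.1))
      (fun i hi hin hc => (h4 i hi hin).2 (mem_iUnion.2 ⟨k, Or.inr hc⟩))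
  have e2 : v n ∈ fo M X Bl₁ (b 0) (k + 1) :=
    far_end h (hG.outSub (k + 1)) (fun j => hb_lt_of_far hM (pout_gbox hM (k + 1)) (hb j)) h1 h3
      (hub_sub_X h2.1) (off_box hd.symm (hG.outSub k h2.1))
      (fun i hi hin hc => (h4 i hi hin).2 (mem_iUnion.2 ⟨k + 1, Or.inr hc⟩))
  refine ⟨v 0, e1, v n, e2, jn_path h1 fun i hi => ?_⟩
  rcases Nat.eq_zero_or_pos i with rfl | hi0
  · exact Or.inl (Or.inl e1)
  · rcases hi.lt_or_eq with hi1 | rfl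
    · exact Or.inr ⟨⟨(h4 i hi0 hi1).1, h5 i hi⟩, (h4 i hi0 hi1).2⟩
    · exact Or.inl (Or.inr e2)

/-- **Inner rail.** The far parts of two consecutive inner rims are joined by the black rail. -/
theorem low_fi (h : HullTri X b) (hM : 0 < M) (hG : HubsGood M X Bl₁ Wh₁) (hB : Bl₂ ⊆ X)
    (hb : ∀ j, 1 + ms M ≤ nsup (b j)) (hR : Rails M X Bl₂ Wh₂ k) :
    ∃ x ∈ fi M X Wh₁ (b 0) k, ∃ y ∈ fi M X Wh₁ (b 0) (k + 1),
      Jn X (fi M X Wh₁ (b 0) k ∪ fi M X Wh₁ (b 0) (k + 1) ∪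
        ((Bl₂ ∩ CBox M (pin M k) (pin M (k + 1))) \ Ex M X Bl₁ Wh₁)) x y := by
  obtain ⟨n, v, h0, h1, h2, h3, h4, h5⟩ := hG.low_link hM hB hR
  have hd := disj_pin_pin hM (succ_mod_ne hM k)
  have e1 : v 0 ∈ fi M X Wh₁ (b 0) k :=
    far_start h (hG.inSub k) (fun j => hb_lt_of_far hM (pin_gbox hM k) (hb j)) h1 h2
      (hub_sub_X h3.1) (off_box hd (hG.inSub (k + 1) h3.1))
      (fun i hi hin hc => (h4 i hi hin).2 (mem_iUnion.2 ⟨k, Or.inl hc⟩))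
  have e2 : v n ∈ fi M X Wh₁ (b 0) (k + 1) :=
    far_end h (hG.inSub (k + 1)) (fun j => hb_lt_of_far hM (pin_gbox hM (k + 1)) (hb j)) h1 h3
      (hub_sub_X h2.1) (off_box hd.symm (hG.inSub k h2.1))
      (fun i hi hin hc => (h4 i hi hin).2 (mem_iUnion.2 ⟨k + 1, Or.inl hc⟩))
  refine ⟨v 0, e1, v n, e2, jn_path h1 fun i hi => ?_⟩
  rcases Nat.eq_zero_or_pos i with rfl | hi0
  · exact Or.inl (Or.inl e1)
  · rcases hi.lt_or_eq with hi1 | rfl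
    · exact Or.inr ⟨⟨(h4 i hi0 hi1).1, h5 i hi⟩, (h4 i hi0 hi1).2⟩
    · exact Or.inl (Or.inr e2)

/-- **Tooth.** A path from the far inner rim to the far outer rim with white inner points. -/
theorem tooth_path (h : HullTri X b) (hM : 0 < M) (hG : HubsGood M X Bl₁ Wh₁) (hW : Wh₂ ⊆ X)
    (hb : ∀ j, 1 + ms M ≤ nsup (b j)) (hT : Tooth M X Wh₂ k) :
    ∃ (n : ℕ) (v : ℕ → ℂ), 0 < n ∧ (∀ i < n, nbr X (v i) (v (i + 1))) ∧
      v 0 ∈ fi M X Wh₁ (b 0) k ∧ v n ∈ fo M X Bl₁ (b 0) k ∧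
      (∀ i, 0 < i → i < n → v i ∈ Wh₂ ∧ v i ∉ Ex M X Bl₁ Wh₁) ∧
      ∀ i ≤ n, v i ∈ CBox M (pin M k) (pout M k) := by
  obtain ⟨n, v, h0, h1, h2, h3, h4, h5⟩ := hG.tooth_link hM hW hT
  have hd := H995.hbox_disj hM k
  refine ⟨n, v, h0, h1, ?_, ?_, h4, h5⟩
  · exact far_start h (hG.inSub k) (fun j => hb_lt_of_far hM (pin_gbox hM k) (hb j)) h1 h2
      (hub_sub_X h3.1) (off_box hd (hG.outSub k h3.1))
      (fun i hi hin hc => (h4 i hi hin).2 (mem_iUnion.2 ⟨k, Or.inl hc⟩))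
  · exact far_end h (hG.outSub k) (fun j => hb_lt_of_far hM (pout_gbox hM k) (hb j)) h1 h3
      (hub_sub_X h2.1) (off_box hd.symm (hG.inSub k h2.1))
      (fun i hi hin hc => (h4 i hi hin).2 (mem_iUnion.2 ⟨k, Or.inr hc⟩))

/-- **Tooth**, as a dart with its chain: a far inner rim point `x`, a neighbour `w` of `x`, and a
white chain from `w` to a far outer rim point. -/
theorem tooth (h : HullTri X b) (hM : 0 < M) (hG : HubsGood M X Bl₁ Wh₁) (hW : Wh₂ ⊆ X)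
    (hb : ∀ j, 1 + ms M ≤ nsup (b j)) (hT : Tooth M X Wh₂ k) :
    ∃ x ∈ fi M X Wh₁ (b 0) k, ∃ w, nbr X x w ∧ ∃ y ∈ fo M X Bl₁ (b 0) k,
      w ∈ fo M X Bl₁ (b 0) k ∪ ((Wh₂ ∩ CBox M (pin M k) (pout M k)) \ Ex M X Bl₁ Wh₁) ∧
      Jn X (fo M X Bl₁ (b 0) k ∪ ((Wh₂ ∩ CBox M (pin M k) (pout M k)) \ Ex M X Bl₁ Wh₁)) w y := by
  obtain ⟨n, v, h0, h1, h2, h3, h4, h5⟩ := tooth_path h hM hG hW hb hT
  have key : ∀ i, 0 < i → i ≤ n → v i ∈ fo M X Bl₁ (b 0) k ∪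
      ((Wh₂ ∩ CBox M (pin M k) (pout M k)) \ Ex M X Bl₁ Wh₁) := by
    intro i hi hin
    rcases hin.lt_or_eq with hi1 | rfl
    · exact Or.inr ⟨⟨(h4 i hi hi1).1, h5 i hin⟩, (h4 i hi hi1).2⟩
    · exact Or.inl h3
  refine ⟨v 0, h2, v 1, by simpa using h1 0 h0, v n, h3, key 1 one_pos h0, ?_⟩
  have h6 := jn_path (X := X) (n := n - 1) (v := fun i => v (i + 1))
    (fun i hi => h1 (i + 1) (by omega)) (fun i hi => key (i + 1) (by omega) (by omega))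
  simpa only [zero_add, show n - 1 + 1 = n by omega] using h6

/-- **Radial corridor.** The far outer rim is joined to the outside of the ring. -/
theorem rad_fo (h : HullTri X b) (hM : 0 < M) (hG : HubsGood M X Bl₁ Wh₁) (hW : Wh₂ ⊆ X)
    (hb : ∀ j, 1 + ms M ≤ nsup (b j)) (hR : Rad M X Wh₂ k) :
    ∃ x ∈ fo M X Bl₁ (b 0) k, ∃ y, 1 + 2 * ms M < nsup y ∧ y ∈ Wh₂ ∧
      Jn X (fo M X Bl₁ (b 0) k ∪ ((Wh₂ ∩ CBox M (pout M k) (prad M k)) \ Ex M X Bl₁ Wh₁)) x y := by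
  obtain ⟨n, v, h0, h1, h2, h3, h4, h5⟩ := hG.rad_link hM hW hR
  have hms := ms_pos hM
  have e1 : v 0 ∈ fo M X Bl₁ (b 0) k :=
    far_start h (hG.outSub k) (fun j => hb_lt_of_far hM (pout_gbox hM k) (hb j)) h1 h2
      (hW (h4 n h0 le_rfl).1) (hb_lt_of_far hM (pout_gbox hM k) (by linarith))
      (fun i hi hin hc => (h4 i hi hin.le).2 (mem_iUnion.2 ⟨k, Or.inr hc⟩))
  refine ⟨v 0, e1, v n, h3, (h4 n h0 le_rfl).1, jn_path h1 fun i hi => ?_⟩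
  rcases Nat.eq_zero_or_pos i with rfl | hi0
  · exact Or.inl e1
  · exact Or.inr ⟨⟨(h4 i hi0 hi).1, h5 i hi⟩, (h4 i hi0 hi).2⟩

/-! ### consecutive gates -/

/-- The far outer rims of the gates `j .. l` and the free white parts of the rails between them. -/
def upU (M : ℕ) (X Bl₁ Wh₁ Wh₂ : Set ℂ) (o : ℂ) (j l : ℕ) : Set ℂ :=
  (⋃ k ∈ Icc j l, fo M X Bl₁ o k) ∪
    ⋃ k ∈ Ico j l, (Wh₂ ∩ CBox M (pout M k) (pout M (k + 1))) \ Ex M X Bl₁ Wh₁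

/-- The far inner rims of the gates `j .. l` and the free black parts of the rails between them. -/
def lowU (M : ℕ) (X Bl₁ Wh₁ Bl₂ : Set ℂ) (o : ℂ) (j l : ℕ) : Set ℂ :=
  (⋃ k ∈ Icc j l, fi M X Wh₁ o k) ∪
    ⋃ k ∈ Ico j l, (Bl₂ ∩ CBox M (pin M k) (pin M (k + 1))) \ Ex M X Bl₁ Wh₁

theorem fo_sub_upU {o : ℂ} {j l : ℕ} (h1 : j ≤ k) (h2 : k ≤ l) :
    fo M X Bl₁ o k ⊆ upU M X Bl₁ Wh₁ Wh₂ o j l := fun _ hz =>
  Or.inl (mem_iUnion₂.2 ⟨k, ⟨h1, h2⟩, hz⟩)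

theorem fi_sub_lowU {o : ℂ} {j l : ℕ} (h1 : j ≤ k) (h2 : k ≤ l) :
    fi M X Wh₁ o k ⊆ lowU M X Bl₁ Wh₁ Bl₂ o j l := fun _ hz =>
  Or.inl (mem_iUnion₂.2 ⟨k, ⟨h1, h2⟩, hz⟩)

theorem upU_mono {o : ℂ} {j l j' l' : ℕ} (h1 : j' ≤ j) (h2 : l ≤ l') :
    upU M X Bl₁ Wh₁ Wh₂ o j l ⊆ upU M X Bl₁ Wh₁ Wh₂ o j' l' := by
  rintro z (hz | hz)
  · obtain ⟨k, hk, hz⟩ := mem_iUnion₂.1 hz
    exact Or.inl (mem_iUnion₂.2 ⟨k, ⟨h1.trans hk.1, hk.2.trans h2⟩, hz⟩)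
  · obtain ⟨k, hk, hz⟩ := mem_iUnion₂.1 hz
    exact Or.inr (mem_iUnion₂.2 ⟨k, ⟨h1.trans hk.1, hk.2.trans_le h2⟩, hz⟩)

theorem lowU_mono {o : ℂ} {j l j' l' : ℕ} (h1 : j' ≤ j) (h2 : l ≤ l') :
    lowU M X Bl₁ Wh₁ Bl₂ o j l ⊆ lowU M X Bl₁ Wh₁ Bl₂ o j' l' := by
  rintro z (hz | hz)
  · obtain ⟨k, hk, hz⟩ := mem_iUnion₂.1 hz
    exact Or.inl (mem_iUnion₂.2 ⟨k, ⟨h1.trans hk.1, hk.2.trans h2⟩, hz⟩)
  · obtain ⟨k, hk, hz⟩ := mem_iUnion₂.1 hz
    exact Or.inr (mem_iUnion₂.2 ⟨k, ⟨h1.trans hk.1, hk.2.trans_le h2⟩, hz⟩)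

/-- **Consecutive outer hubs are joined.** -/
theorem up_joined (h : HullTri X b) (hM : 0 < M) (hG : HubsGood M X Bl₁ Wh₁) (hW : Wh₂ ⊆ X)
    (hb : ∀ j, 1 + ms M ≤ nsup (b j)) {j l : ℕ} (hjl : j ≤ l)
    (hR : ∀ k, j ≤ k → k < l → Rails M X Bl₂ Wh₂ k) {x y : ℂ} (hx : x ∈ fo M X Bl₁ (b 0) j)
    (hy : y ∈ fo M X Bl₁ (b 0) l) : Jn X (upU M X Bl₁ Wh₁ Wh₂ (b 0) j l) x y := by
  induction l, hjl using Nat.le_induction generalizing y with
  | base => exact (fo_conn h hx hy).mono (fo_sub_upU le_rfl le_rfl)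
  | succ l hjl ih =>
    obtain ⟨x', hx', y', hy', hxy⟩ := up_fo h hM hG hW hb (hR l hjl (Nat.lt_succ_self l))
    have h1 := (ih (fun k h1 h2 => hR k h1 (by omega)) hx').mono
      (upU_mono (Wh₁ := Wh₁) (Wh₂ := Wh₂) (M := M) (X := X) (Bl₁ := Bl₁) (o := b 0) le_rfl
        (Nat.le_succ l))
    have h2 : Jn X (upU M X Bl₁ Wh₁ Wh₂ (b 0) j (l + 1)) x' y' := by
      refine hxy.mono ?_
      rintro z ((hz | hz) | hz)
      · exact fo_sub_upU hjl (Nat.le_succ l) hz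
      · exact fo_sub_upU (by omega) le_rfl hz
      · exact Or.inr (mem_iUnion₂.2 ⟨l, ⟨hjl, Nat.lt_succ_self l⟩, hz⟩)
    exact (h1.trans h2).trans ((fo_conn h hy' hy).mono (fo_sub_upU (by omega) le_rfl))

/-- **Consecutive inner hubs are joined.** -/
theorem low_joined (h : HullTri X b) (hM : 0 < M) (hG : HubsGood M X Bl₁ Wh₁) (hB : Bl₂ ⊆ X)
    (hb : ∀ j, 1 + ms M ≤ nsup (b j)) {j l : ℕ} (hjl : j ≤ l)
    (hR : ∀ k, j ≤ k → k < l → Rails M X Bl₂ Wh₂ k) {x y : ℂ} (hx : x ∈ fi M X Wh₁ (b 0) j)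
    (hy : y ∈ fi M X Wh₁ (b 0) l) : Jn X (lowU M X Bl₁ Wh₁ Bl₂ (b 0) j l) x y := by
  induction l, hjl using Nat.le_induction generalizing y with
  | base => exact (fi_conn h hx hy).mono (fi_sub_lowU le_rfl le_rfl)
  | succ l hjl ih =>
    obtain ⟨x', hx', y', hy', hxy⟩ := low_fi h hM hG hB hb (hR l hjl (Nat.lt_succ_self l))
    have h1 := (ih (fun k h1 h2 => hR k h1 (by omega)) hx').mono
      (lowU_mono (Wh₁ := Wh₁) (Bl₂ := Bl₂) (M := M) (X := X) (Bl₁ := Bl₁) (o := b 0) le_rfl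
        (Nat.le_succ l))
    have h2 : Jn X (lowU M X Bl₁ Wh₁ Bl₂ (b 0) j (l + 1)) x' y' := by
      refine hxy.mono ?_
      rintro z ((hz | hz) | hz)
      · exact fi_sub_lowU hjl (Nat.le_succ l) hz
      · exact fi_sub_lowU (by omega) le_rfl hz
      · exact Or.inr (mem_iUnion₂.2 ⟨l, ⟨hjl, Nat.lt_succ_self l⟩, hz⟩)
    exact (h1.trans h2).trans ((fi_conn h hy' hy).mono (fi_sub_lowU (by omega) le_rfl))

/-- The colour of `upU` in the composite colouring. -/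
theorem upU_white (hX : X ⊆ Bl₁ ∪ Wh₁) {o : ℂ} {j l : ℕ} :
    upU M X Bl₁ Wh₁ Wh₂ o j l ⊆ mix (Ex M X Bl₁ Wh₁) Wh₁ Wh₂ := by
  rintro z (hz | hz)
  · obtain ⟨k, -, hz⟩ := mem_iUnion₂.1 hz
    exact outRim_white hX k (fo_rim hz)
  · obtain ⟨k, -, hz⟩ := mem_iUnion₂.1 hz
    exact (mem_mix_of_not_mem hz.2).2 hz.1.1

/-- The colour of `lowU` in the composite colouring. -/
theorem lowU_black (hX : X ⊆ Bl₁ ∪ Wh₁) {o : ℂ} {j l : ℕ} :
    lowU M X Bl₁ Wh₁ Bl₂ o j l ⊆ mix (Ex M X Bl₁ Wh₁) Bl₁ Bl₂ := by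
  rintro z (hz | hz)
  · obtain ⟨k, -, hz⟩ := mem_iUnion₂.1 hz
    exact inRim_black hX k (fi_rim hz)
  · obtain ⟨k, -, hz⟩ := mem_iUnion₂.1 hz
    exact (mem_mix_of_not_mem hz.2).2 hz.1.1

end comb

end Vale.Agent.P148.R2.H144.Far
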