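import Vale.Agent.P148.R2.H184.L7
import Vale.Agent.P148.R2.H203.T2

/-!
# Energy transfer, Poisson layer (P148, module T3), part a

The quenched mean energy of the local loops does not depend on the domain: it is the average over
the recolourings of the points of the configuration in the cell.
-/

open MeasureTheory Set Metric Topology Filter ProbabilityTheory
open scoped ENNReal NNReal

namespace Vale.Agent.P148.R2.H144

open H592 H184 _root_.P148 _root_.P148.H729

/-- **Domain independence** of the quenched mean energy of the local loops. -/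
theorem avg_SQ {X : Set ℂ} {T : Set Pt} {Q : Set ℂ} (hXQ : X ∩ Q = pts T ∩ Q) (hT : OneCol T)
    {V : Type*} [Fintype V] [DecidableEq V] {π : ℂ → V} (hF : Faith X Q π) (Θ : Dt → ℂ) :
    (2 ^ Fintype.card V)⁻¹ * ∑ σ : V → Bool, SQ X Q (pc π σ) Θ = avg Q (SC Q Θ) T := by
  classical
  set p : V → Prop := fun v => ∃ x ∈ X ∩ Q, π x = v with hp
  let e : {v : V // p v} → ℂ := fun i => i.2.choose
  have heX : ∀ i, e i ∈ X ∩ Q := fun i => i.2.choose_spec.1
  have hπe : ∀ i, π (e i) = i.1 := fun i => i.2.choose_spec.2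
  have he : Function.Injective e := by
    intro i j hij
    apply Subtype.ext
    rw [← hπe i, ← hπe j, hij]
  have hr : range e = pts T ∩ Q := by
    rw [← hXQ]
    ext z
    constructor
    · rintro ⟨i, rfl⟩
      exact heX i
    · intro hz
      refine ⟨⟨π z, z, hz, rfl⟩, ?_⟩
      have h1 := hπe ⟨π z, z, hz, rfl⟩
      exact (hF z hz.1 hz.2 _ (heX _).1 h1.symm).symm
  rw [avg_eq_sum he hr hT]
  have h2 : ∀ σ : V → Bool, SQ X Q (pc π σ) Θ = SC Q Θ (paint T Q e fun i => σ i.1) := by
    intro σ
    rw [SC_eq]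
    · unfold SG
      rw [pts_paint _ hr]
      refine SQ_congr hXQ ?_ Θ
      intro x hx
      unfold pc H184.col
      rw [Bool.eq_iff_iff, decide_eq_true_eq, mem_paint_of_mem _ (q := (x, true)) hx.2]
      constructor
      · intro h
        refine ⟨⟨π x, x, hx, rfl⟩, ?_, h⟩
        exact (hF x hx.1 hx.2 _ (heX _).1 (hπe ⟨π x, x, hx, rfl⟩).symm).symm
      · rintro ⟨i, hi1, hi2⟩
        have hi1' : e i = x := hi1
        have : π x = i.1 := by rw [← hi1', hπe]
        rw [this]
        exact hi2
    · refine (finite_range fun i : {v : V // p v} => (e i, σ i.1)).subset ?_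
      rintro q ⟨hq, hq'⟩
      obtain ⟨i, hi1, hi2⟩ := (mem_paint_of_mem _ hq'.1).1 hq
      exact ⟨i, Prod.ext hi1 hi2⟩
  simp_rw [h2]
  refine Eq.trans ?_ (Eq.trans (sum_subtype_pow p (fun c => SC Q Θ (paint T Q e c))).symm ?_)
  all_goals (congr; exact Subsingleton.elim _ _)

end Vale.Agent.P148.R2.H144
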