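import Vale.Agent.P148.R2.H144.T3a
import Vale.Agent.P148.R2.H184.L10

/-!
# Energy transfer, Poisson layer (P148, module T3), part b

Measurability of the energy of the local faces; the missing energy in expectation and with high
probability.
-/

open MeasureTheory Set Metric Topology Filter ProbabilityTheory
open scoped ENNReal NNReal

namespace Vale.Agent.P148.R2.H144

open H592 H184 _root_.P148 _root_.P148.H729

universe u

section
variable {n : ℕ}

theorem tr_of_ty' {Q : Set ℂ} {x₀ x : Fin n → Pt} (hA : tyA Q x = tyA Q x₀)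
    (hE : tyE x = tyE x₀) :
    Tr (ph x₀ x) (ph x x₀) (pts (range x₀)) Q (pts (range x)) Q (fun _ => true)
      (fun _ => true) where
  lf _ hd := lf_of_ty hA hE hd
  lf' _ hd := lf_of_ty hA.symm hE.symm hd
  l z hz := by
    obtain ⟨i, rfl⟩ := mem_pts_range.1 hz.1
    rw [ph_apply hE, ph_apply hE.symm]
  r z hz := by
    obtain ⟨i, rfl⟩ := mem_pts_range.1 hz.1
    rw [ph_apply hE.symm, ph_apply hE]
  col _ _ := rfl
  col' _ _ := rfl

theorem measurable_EQ_ph {X Q : Set ℂ} (hX : X.Finite) {Θ : Dt → ℂ}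
    (hΘ : Measurable Θ) (x₀ : Fin n → Pt) :
    Measurable fun x : Fin n → Pt => EQ X Q (fun e => Θ (mp (ph x₀ x) e)) := by
  classical
  have hfin := finite_LF hX Q
  have h1 : ∀ x : Fin n → Pt, EQ X Q (fun e => Θ (mp (ph x₀ x) e)) =
      ∑ d ∈ hfin.toFinset, ENNReal.ofReal (‖Θ (mp (ph x₀ x) d)‖ ^ 2) := by
    intro x
    unfold EQ
    rw [tsum_eq_sum (s := hfin.toFinset)]
    · refine Finset.sum_congr rfl fun d hd => ?_
      rw [if_pos]
      exact hfin.mem_toFinset.1 hd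
    · intro d hd
      rw [if_neg]
      exact fun h => hd (hfin.mem_toFinset.2 h)
  simp_rw [h1]
  refine Finset.measurable_sum _ fun d _ => ?_
  exact ENNReal.measurable_ofReal.comp ((hΘ.comp (measurable_mp_ph x₀ d)).norm.pow_const 2)

theorem measurable_EQ_range {Q : Set ℂ} (hQ : IsOpen Q) (hne : Q ≠ univ) {Θ : Dt → ℂ}
    (hΘ : Measurable Θ) (n : ℕ) : Measurable fun x : Fin n → Pt => EQ (pts (range x)) Q Θ := by
  refine measurable_of_types (T := Set (Fin n × Fin n × Fin n) × Set (Fin n × Fin n))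
    (fun x => (tyA Q x, tyE x)) ?_ ?_
  · rintro ⟨a, b⟩
    have e : {x : Fin n → Pt | (tyA Q x, tyE x) = (a, b)} =
        {x | tyA Q x = a} ∩ {x | tyE x = b} := by
      ext x
      simp only [Prod.mk.injEq, mem_ofPred_eq, mem_inter_iff]
    rw [e]
    exact (measurableSet_eq_type (measurableSet_tyA hQ hne) a).inter
      (measurableSet_eq_type measurableSet_tyE b)
  · intro x₀
    refine ⟨_, measurable_EQ_ph (Q := Q) (finite_pts_range x₀) hΘ x₀, fun x hx => ?_⟩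
    simp only [Prod.mk.injEq] at hx
    exact (tr_of_ty' hx.1 hx.2).EQ_eq Θ

end

open Classical in
/-- The energy of the local faces, `0` if there are infinitely many points in the window. -/
noncomputable def EC (Q : Set ℂ) (Θ : Dt → ℂ) (T : Set Pt) : ℝ≥0∞ :=
  if (T ∩ Q ×ˢ univ).Finite then EQ (pts (T ∩ Q ×ˢ univ)) Q Θ else 0

theorem EC_eq {Q : Set ℂ} (Θ : Dt → ℂ) {T : Set Pt} (hT : (T ∩ Q ×ˢ univ).Finite) :
    EC Q Θ T = EQ (pts T) Q Θ := by
  unfold EC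
  rw [if_pos hT, pts_window]
  exact EQ_congr (by rw [inter_assoc, inter_self]) Θ

theorem measurable_EC {Q : Set ℂ} (hQ : IsOpen Q) (hb : Bornology.IsBounded Q) {Θ : Dt → ℂ}
    (hΘ : Measurable Θ) : @Measurable _ _ voidSigma _ (EC Q Θ) := by
  have hne : Q ≠ univ := by
    rintro rfl
    exact NormedSpace.unbounded_univ ℝ ℂ hb
  have hm : MeasurableSet (Q ×ˢ (univ : Set Bool)) := hQ.measurableSet.prod MeasurableSet.univ
  have hB : Bdd (Q ×ˢ (univ : Set Bool)) := by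
    obtain ⟨r, hr⟩ := hb.subset_ball 0
    exact ⟨r, prod_mono hr subset_rfl⟩
  exact measurable_window' (G := fun T => EQ (pts T) Q Θ) hm hB
    (fun n => measurable_EQ_range hQ hne hΘ n) 0

section
variable {Ω : Type*} [MeasurableSpace Ω] {P : Measure Ω} {S : Ω → Set Pt} {lam : ℝ≥0}

theorem measurable_EQ_comp (h : IsColouredPoisson P S lam) {Q : Set ℂ} (hQ : IsOpen Q)
    (hb : Bornology.IsBounded Q) {Θ : Dt → ℂ} (hΘ : Measurable Θ) :
    Measurable fun ω => EQ (pts (S ω)) Q Θ := by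
  have h1 : Measurable fun ω => EC Q Θ (S ω) :=
    @Measurable.comp _ _ _ _ voidSigma _ _ _ (measurable_EC hQ hb hΘ) h.measurable_self
  convert h1 using 2 with ω
  rw [EC_eq]
  obtain ⟨r, hr⟩ := hb.subset_ball 0
  exact (h.locFin ω r).subset (inter_subset_inter_right _ (prod_mono hr subset_rfl))

/-- The quenched missing energy of a cell, times four. -/
noncomputable def ms (Q : Set ℂ) (Θ : Dt → ℂ) (T : Set Pt) : ℝ≥0∞ :=
  EQ (pts T) Q Θ - 4 * avg Q (SC Q Θ) T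

theorem measurable_ms (h : IsColouredPoisson P S lam) {Q : Set ℂ} (hQ : IsOpen Q)
    (hb : Bornology.IsBounded Q) {Θ : Dt → ℂ} (hΘ : Measurable Θ) :
    Measurable fun ω => ms Q Θ (S ω) :=
  (measurable_EQ_comp h hQ hb hΘ).sub ((measurable_avg h hQ.measurableSet hb
    (measurable_SC hQ hb hΘ)).const_mul _)

/-- Quenched energy bound. -/
theorem four_avg_le {T : Set Pt} {ρ : ℝ} (hT : Generic T (bfar ρ)) (h1 : OneCol T) (hρ : 0 < ρ)
    {Q : Set ℂ} (hQ : Q ⊆ ball 0 (ρ / 2)) {τ : ℂ} (hτ : τ ^ 2 + τ + 1 = 0)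
    {Θ : Dt → ℂ} (hΘ : ∀ d, Θ (rt d) = τ ^ 2 * Θ d) :
    4 * avg Q (SC Q Θ) T ≤ EQ (pts T) Q Θ := by
  obtain ⟨I, i1, i2, e, he, hr, hle⟩ := avg_SC_le hT hρ hQ hτ hΘ
  rw [avg_eq_sum he hr h1]
  calc 4 * ((2 ^ Fintype.card I)⁻¹ * ∑ c : I → Bool, SC Q Θ (paint T Q e c))
      ≤ 4 * (4⁻¹ * EQ (pts T) Q Θ) := by gcongr
    _ = EQ (pts T) Q Θ := by
        rw [← mul_assoc, ENNReal.mul_inv_cancel (by norm_num) (by norm_num), one_mul]

theorem ae_four_avg_le [IsProbabilityMeasure P] (h : IsColouredPoisson P S lam) {Q : Set ℂ}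
    (hb : Bornology.IsBounded Q) {τ : ℂ} (hτ : τ ^ 2 + τ + 1 = 0)
    {Θ : Dt → ℂ} (hΘ : ∀ d, Θ (rt d) = τ ^ 2 * Θ d) :
    ∀ᵐ ω ∂P, 4 * avg Q (SC Q Θ) (S ω) ≤ EQ (pts (S ω)) Q Θ := by
  obtain ⟨r, hr⟩ := hb.subset_ball 0
  set ρ : ℝ := 2 * max r 1 with hρ
  have hρ0 : 0 < ρ := by positivity
  have hQρ : Q ⊆ ball 0 (ρ / 2) := by
    refine hr.trans (ball_subset_ball ?_)
    rw [hρ]
    have := le_max_left r 1
    linarith
  filter_upwards [ae_generic h (bfar ρ)] with ω hω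
  exact four_avg_le hω (h.oneColour ω) hρ0 hQρ hτ hΘ

/-- Expected missing energy. -/
theorem lintegral_ms [IsProbabilityMeasure P] (h : IsColouredPoisson P S lam) {Q : Set ℂ}
    (hQ : IsOpen Q) (hb : Bornology.IsBounded Q) {τ : ℂ} (hτ : τ ^ 2 + τ + 1 = 0)
    {Θ : Dt → ℂ} (hΘ : ∀ d, Θ (rt d) = τ ^ 2 * Θ d) (hm : Measurable Θ) :
    ∫⁻ ω, ms Q Θ (S ω) ∂P + 4 * ∫⁻ ω, SC Q Θ (S ω) ∂P = ∫⁻ ω, EQ (pts (S ω)) Q Θ ∂P := by
  have hA : Measurable fun ω => 4 * avg Q (SC Q Θ) (S ω) :=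
    (measurable_avg h hQ.measurableSet hb (measurable_SC hQ hb hm)).const_mul _
  rw [← lintegral_avg h hQ.measurableSet hb (measurable_SC hQ hb hm),
    ← lintegral_const_mul _ (measurable_avg h hQ.measurableSet hb (measurable_SC hQ hb hm)),
    ← lintegral_add_right _ hA]
  refine lintegral_congr_ae ?_
  filter_upwards [ae_four_avg_le h hb hτ hΘ] with ω hω
  exact tsub_add_cancel_of_le hω

end

/-- **The input of the energy transfer**: squares of side `L` with `lam L² → ∞` have no missing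
energy: the energy of the local loops is asymptotically all the energy of the local faces. -/
def ME (Θ : Dt → ℂ) : Prop :=
  ∀ δ : ℝ, 0 < δ → ∃ K : ℝ, 0 < K ∧ ∀ (Ω : Type u) [MeasurableSpace Ω] (P : Measure Ω)
    [IsProbabilityMeasure P] (S : Ω → Set Pt) (lam : ℝ≥0), IsColouredPoisson P S lam →
    ∀ (x : ℂ) (L : ℝ), 0 < L → K ≤ lam * L ^ 2 →
      ∫⁻ ω, EQ (pts (S ω)) (sqr x L) Θ ∂P ≤
        4 * ∫⁻ ω, SC (sqr x L) Θ (S ω) ∂P + ENNReal.ofReal (δ * L ^ 2)

end Vale.Agent.P148.R2.H144
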