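import Vale.Agent.P148.R2.H144.T3b
import Vale.Agent.P148.R2.F.Whp

/-!
# Energy transfer, Poisson layer (P148, module T3), part c

The missing energy of a finite family of squares is small with high probability; the energy of the
faces in a disc is bounded with high probability.
-/

open MeasureTheory Set Metric Topology Filter ProbabilityTheory
open scoped ENNReal NNReal

namespace Vale.Agent.P148.R2.H144

open H592 H184 _root_.P148 _root_.P148.H729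

universe u

theorem whp_of_forall {A : ℝ → Set Pt → Prop}
    (h : ∀ θ : ℝ, 0 < θ → ∀ᶠ ε : ℝ in 𝓝[>] 0, ∀ (Ω : Type u) [MeasurableSpace Ω] (P : Measure Ω)
      [IsProbabilityMeasure P] (S : Ω → Set Pt),
      IsColouredPoisson P S (Real.toNNReal (ε ^ (-2 : ℤ))) →
      P {ω | ¬ A ε (S ω)} ≤ ENNReal.ofReal θ) :
    ∀ᶠ m in F.whp.{u}, A m.1 m.2 := by
  rw [F.eventually_whp]
  intro Ω _ P _ S hS
  rw [ENNReal.tendsto_nhds_zero]
  intro θ hθ
  by_cases hθ' : θ = ⊤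
  · exact Eventually.of_forall fun _ => hθ' ▸ le_top
  · filter_upwards [h θ.toReal (ENNReal.toReal_pos hθ.ne' hθ'), self_mem_nhdsWithin] with ε hε hε0
    rw [ENNReal.ofReal_toReal hθ'] at hε
    exact hε (Ω ε) (P ε) (S ε) (hS ε hε0)

theorem coe_inten {ε : ℝ} (hε : 0 < ε) : ((Real.toNNReal (ε ^ (-2 : ℤ)) : ℝ≥0) : ℝ) * ε ^ 2 = 1 := by
  rw [Real.coe_toNNReal _ (by positivity), zpow_neg]
  have : ε ^ (2 : ℤ) = ε ^ 2 := by norm_cast
  rw [this]
  field_simp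

theorem eventually_inten_ge (K : ℝ) {l : ℝ} (hl : 0 < l) : ∀ᶠ ε : ℝ in 𝓝[>] 0,
    K ≤ ((Real.toNNReal (ε ^ (-2 : ℤ)) : ℝ≥0) : ℝ) * l ^ 2 := by
  have h1 : Tendsto (fun ε : ℝ => ε ^ (-2 : ℤ) * l ^ 2) (𝓝[>] 0) atTop :=
    F.tendsto_inten.atTop_mul_const (by positivity)
  filter_upwards [h1.eventually_ge_atTop K, self_mem_nhdsWithin] with ε hε hε0
  have : (0 : ℝ) < ε := hε0
  rwa [Real.coe_toNNReal _ (by positivity)]

section
variable {Ω : Type*} [MeasurableSpace Ω] {P : Measure Ω} {S : Ω → Set Pt} {lam : ℝ≥0}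

/-- Markov's inequality for the missing energy. -/
theorem ms_prob [IsProbabilityMeasure P] (h : IsColouredPoisson P S lam) {τ : ℂ} {κ : ℝ}
    {Θ : Dt → ℂ} (hΘ : Wt τ κ Θ) {l δ : ℝ} (hδ : 0 < δ)
    (hle : ∀ x : ℂ, ∫⁻ ω, EQ (pts (S ω)) (sqr x l) Θ ∂P ≤
        4 * ∫⁻ ω, SC (sqr x l) Θ (S ω) ∂P + ENNReal.ofReal (δ * l ^ 2))
    (hfin : ∀ x : ℂ, ∫⁻ ω, SC (sqr x l) Θ (S ω) ∂P ≠ ⊤) (I : Finset (ℤ × ℤ)) {η : ℝ} (hη : 0 < η) :
    P {ω | ¬ ∑ z ∈ I, ms (sqr (H291.gp l z) l) Θ (S ω) ≤ ENNReal.ofReal η} ≤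
      ENNReal.ofReal (I.card * (δ * l ^ 2) / η) := by
  have hmeas : ∀ z : ℤ × ℤ, Measurable fun ω => ms (sqr (H291.gp l z) l) Θ (S ω) := fun z =>
    measurable_ms h (isOpen_sqr _ _) (isBounded_sqr _ _) hΘ.meas
  have h1 : ∀ x : ℂ, ∫⁻ ω, ms (sqr x l) Θ (S ω) ∂P ≤ ENNReal.ofReal (δ * l ^ 2) := by
    intro x
    have h2 := lintegral_ms h (isOpen_sqr x l) (isBounded_sqr x l) hΘ.tau hΘ.rot hΘ.meas
    have h3 := hle x
    rw [← h2, add_comm] at h3
    have h4 : 4 * ∫⁻ ω, SC (sqr x l) Θ (S ω) ∂P ≠ ⊤ := ENNReal.mul_ne_top (by norm_num) (hfin x)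
    exact (ENNReal.add_le_add_iff_left h4).1 h3
  have h5 : ∫⁻ ω, ∑ z ∈ I, ms (sqr (H291.gp l z) l) Θ (S ω) ∂P ≤
      ENNReal.ofReal (I.card * (δ * l ^ 2)) := by
    rw [lintegral_finsetSum _ fun z _ => hmeas z]
    refine (Finset.sum_le_card_nsmul _ _ _ fun z _ => h1 _).trans (le_of_eq ?_)
    rw [nsmul_eq_mul, ENNReal.ofReal_mul (p := (I.card : ℝ)) (by positivity),
      ENNReal.ofReal_natCast]
  have hsum : Measurable fun ω => ∑ z ∈ I, ms (sqr (H291.gp l z) l) Θ (S ω) :=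
    Finset.measurable_fun_sum _ fun z _ => hmeas z
  have h6 := meas_ge_le_lintegral_div (μ := P) hsum.aemeasurable
    (ENNReal.ofReal_pos.2 hη).ne' ENNReal.ofReal_ne_top
  refine (measure_mono fun ω hω => ?_).trans (h6.trans ?_)
  · exact (not_le.1 hω).le
  · rw [ENNReal.ofReal_div_of_pos hη]
    gcongr

/-- Markov's inequality for the energy of the faces. -/
theorem EQ_prob [IsProbabilityMeasure P] (h : IsColouredPoisson P S lam) {τ : ℂ} {κ : ℝ}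
    {Θ : Dt → ℂ} (hΘ : Wt τ κ Θ) {a : ℝ} (ha : 0 < a) (hla : lam * a ^ 2 = 1) {R : ℝ} (hR : a ≤ R)
    {M : ℝ} (hM : 0 < M) :
    P {ω | ¬ EQ (pts (S ω)) (ball 0 R) Θ ≤ ENNReal.ofReal M} ≤
      ENNReal.ofReal (KK κ * R ^ 2 / M) := by
  have h1 := lintegral_EQ_le h ha hla (x := 0) hR (Q := ball 0 R) ball_subset_closedBall hΘ
  have h6 := meas_ge_le_lintegral_div (μ := P)
    (measurable_EQ_comp h isOpen_ball isBounded_ball hΘ.meas (Q := ball 0 R)).aemeasurable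
    (ENNReal.ofReal_pos.2 hM).ne' ENNReal.ofReal_ne_top
  refine (measure_mono fun ω hω => ?_).trans (h6.trans ?_)
  · exact (not_le.1 hω).le
  · rw [ENNReal.ofReal_div_of_pos hM]
    gcongr

end

/-- The missing energy of a finite family of squares is small with high probability. -/
theorem whp_ms {τ : ℂ} {κ : ℝ} {Θ : Dt → ℂ} (hΘ : Wt τ κ Θ) (hME : ME.{u} Θ) {l : ℝ} (hl : 0 < l)
    (I : Finset (ℤ × ℤ)) {η : ℝ} (hη : 0 < η) :
    ∀ᶠ m in F.whp.{u}, ∑ z ∈ I, ms (sqr (H291.gp l z) l) Θ m.2 ≤ ENNReal.ofReal η := by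
  refine whp_of_forall (A := fun _ T =>
    ∑ z ∈ I, ms (sqr (H291.gp l z) l) Θ T ≤ ENNReal.ofReal η) fun θ hθ => ?_
  set δ : ℝ := η * θ / ((I.card + 1) * l ^ 2) with hδ
  have hδ0 : 0 < δ := by positivity
  obtain ⟨K, hK0, hK⟩ := hME δ hδ0
  have h1 : ∀ᶠ ε : ℝ in 𝓝[>] 0, ε < 2 * l := by
    filter_upwards [Ioo_mem_nhdsGT (show (0 : ℝ) < 2 * l by positivity)] with ε hε using hε.2
  filter_upwards [eventually_inten_ge K hl, h1, self_mem_nhdsWithin] with ε hε hεl hε0 Ω _ P _ S hS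
  have hε0' : (0 : ℝ) < ε := hε0
  refine (ms_prob hS hΘ hδ0 (fun x => hK Ω P S _ hS x l hl hε) ?_ I hη).trans ?_
  · intro x
    have h2 := lintegral_SC_le hS (isOpen_sqr x l) (isBounded_sqr x l) hΘ.tau hΘ.rot hΘ.meas
    have h3 := lintegral_EQ_le hS hε0' (coe_inten hε0') (x := x) (r := 2 * l) hεl.le
      (sqr_subset_closedBall x l) hΘ
    refine ne_top_of_le_ne_top ?_ h2
    exact ENNReal.mul_ne_top (by norm_num) (ne_top_of_le_ne_top ENNReal.ofReal_ne_top h3)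
  · refine ENNReal.ofReal_le_ofReal ?_
    rw [hδ]
    have hc : (0 : ℝ) ≤ I.card := by positivity
    have hl2 : (0 : ℝ) < l ^ 2 := by positivity
    rw [div_le_iff₀ hη]
    have e : (I.card : ℝ) * (η * θ / ((I.card + 1) * l ^ 2) * l ^ 2) =
        (I.card / (I.card + 1)) * (θ * η) := by
      field_simp
    rw [e]
    have h4 : (I.card : ℝ) / (I.card + 1) ≤ 1 := by
      rw [div_le_one (by positivity)]
      linarith
    have h5 : 0 ≤ θ * η := by positivity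
    nlinarith

end Vale.Agent.P148.R2.H144
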