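import Vale.Agent.P148.R2.H144.T3c
import Vale.Agent.P148.R2.H203.T4

/-!
# Energy transfer, Poisson layer (P148, module T3), part d

Quenched inequality for a discrete three-arc domain: the missing energy of the squares, which does
not depend on the domain, bounds the weighted sum.
-/

open MeasureTheory Set Metric Topology Filter ProbabilityTheory
open scoped ENNReal NNReal

namespace Vale.Agent.P148.R2.H144

open H592 H184 H203 _root_.P148 _root_.P148.H729
open Vale.Agent.P148.R2.F (Dom)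
open Vale.Agent.P148.R2.H219 (tau)

/-- The spin one weight is admissible. -/
theorem pd_eq (d : Dt) : pd d = tau * th tau d := by
  have h3 : tau ^ 3 = 1 := H258.Tri.tau_pow_three tau_root
  unfold pd th
  linear_combination (-d.1) * h3

theorem norm_tau : ‖tau‖ = 1 := H258.Tri.norm_tau tau_root

theorem wt_pd : Wt tau 4 pd where
  tau := tau_root
  rot := pd_rt
  meas := by unfold pd; fun_prop
  sim r u d hr := by
    rw [pd_eq, pd_eq, (wt_th tau_root).sim r u d hr]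
    ring
  pos := by norm_num
  bd d hd := by
    rw [pd_eq, norm_mul, norm_tau, one_mul]
    exact (wt_th tau_root).bd d hd

/-- Cancellation of the local energies. -/
theorem cancel {ι : Type*} (I : Finset ι) {a w r : ℝ≥0∞} {b A E : ι → ℝ≥0∞}
    (hA : ∀ i ∈ I, A i ≤ E i) (hb : ∀ i ∈ I, b i ≠ ⊤) (hE : ∀ i ∈ I, E i ≠ ⊤)
    (h : a + ∑ i ∈ I, b i * A i ≤ ∑ i ∈ I, (b i + w) * E i + r) :
    a ≤ ∑ i ∈ I, b i * (E i - A i) + w * ∑ i ∈ I, E i + r := by
  have h1 : ∑ i ∈ I, (b i + w) * E i + r =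
      (∑ i ∈ I, b i * (E i - A i) + w * ∑ i ∈ I, E i + r) + ∑ i ∈ I, b i * A i := by
    have : ∑ i ∈ I, (b i + w) * E i = ∑ i ∈ I, b i * (E i - A i) + w * ∑ i ∈ I, E i +
        ∑ i ∈ I, b i * A i := by
      rw [Finset.mul_sum, ← Finset.sum_add_distrib, ← Finset.sum_add_distrib]
      refine Finset.sum_congr rfl fun i hi => ?_
      have h2 : b i * (E i - A i) + b i * A i = b i * E i := by
        rw [← mul_add, tsub_add_cancel_of_le (hA i hi)]
      rw [add_mul, add_right_comm, h2]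
    rw [this]
    ring
  have h3 : ∑ i ∈ I, b i * A i ≠ ⊤ := by
    rw [ENNReal.sum_ne_top]
    exact fun i hi => ENNReal.mul_ne_top (hb i hi) (ne_top_of_le_ne_top (hE i hi) (hA i hi))
  rw [h1] at h
  exact (ENNReal.add_le_add_iff_right h3).1 h

/-- The energies of disjoint cells. -/
theorem sum_EQ_le {X : Set ℂ} {ι : Type*} (I : Finset ι) (Q : ι → Set ℂ) {U : Set ℂ}
    (hd : ∀ i ∈ I, ∀ j ∈ I, i ≠ j → Disjoint (Q i) (Q j)) (hU : ∀ i ∈ I, Q i ⊆ U) (Θ : Dt → ℂ) :
    ∑ i ∈ I, EQ X (Q i) Θ ≤ EQ X U Θ := by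
  classical
  unfold EQ
  rw [← Summable.tsum_finsetSum fun i _ => ENNReal.summable]
  refine ENNReal.tsum_le_tsum fun d => ?_
  by_cases h : ∃ i ∈ I, LF X (Q i) d
  · obtain ⟨i, hi, hl⟩ := h
    rw [Finset.sum_eq_single i]
    · rw [if_pos hl, if_pos (hl.mono (hU i hi))]
    · intro j hj hne
      rw [if_neg]
      intro hl'
      exact Set.disjoint_left.1 (hd j hj i hi hne) hl'.mem.1 hl.mem.1
    · exact fun hn => absurd hi hn
  · push Not at h
    rw [Finset.sum_eq_zero]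
    · exact zero_le
    · intro i hi
      rw [if_neg (h i hi)]

theorem EQ_ne_top {X Q : Set ℂ} (hX : X.Finite) (Θ : Dt → ℂ) : EQ X Q Θ ≠ ⊤ := by
  classical
  have hfin := finite_LF hX Q
  unfold EQ
  rw [tsum_eq_sum (s := hfin.toFinset)]
  · rw [ENNReal.sum_ne_top]
    intro d hd
    split_ifs
    · exact ENNReal.ofReal_ne_top
    · exact ENNReal.zero_ne_top
  · intro d hd
    rw [if_neg]
    exact fun h => hd (hfin.mem_toFinset.2 h)

/-- **Quenched inequality** for a discrete three-arc domain and a finite family of cells of free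
points: the first two terms do not depend on the domain. -/
theorem Usum_le {T : Set Pt} (h1 : OneCol T) (D : Dom) (χ : ℂ → ℝ) {C ω : ℝ} (hC : ∀ z, |χ z| ≤ C)
    {ι : Type*} [DecidableEq ι] (I : Finset ι) (Q : ι → Set ℂ)
    (hQ : ∀ i ∈ I, ∀ j ∈ I, i ≠ j → Disjoint (Q i) (Q j)) {U : Set ℂ} (hU : ∀ i ∈ I, Q i ⊆ U)
    (hX : D.X ∩ U = pts T ∩ U) (hF : ∀ i ∈ I, ∀ x ∈ D.X, x ∈ Q i → D.Free x)
    (c : ι → ℂ) (hω : ∀ i ∈ I, ∀ d, LF D.X (Q i) d → |χ (cd d) - χ (c i)| ≤ ω)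
    (hA : ∀ i ∈ I, 4 * avg (Q i) (SC (Q i) pd) T ≤ EQ (pts T) (Q i) pd) :
    ENNReal.ofReal (‖D.Usum χ‖ ^ 2) ≤ ENNReal.ofReal (2 * C ^ 2) * ∑ i ∈ I, ms (Q i) pd T +
      ENNReal.ofReal (2 * ω ^ 2) * EQ (pts T) U pd +
      rest D.hull (cmap D.X D.O) (fib D) (fun i : I => Q i)
        (fun d => (cf D χ d : ℂ) * pd d) := by
  classical
  have hXQ : ∀ i ∈ I, D.X ∩ Q i = pts T ∩ Q i := by
    intro i hi
    rw [← inter_eq_self_of_subset_right (hU i hi), ← inter_assoc, hX, inter_assoc]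
  have hEQ : ∀ i ∈ I, EQ D.X (Q i) pd = EQ (pts T) (Q i) pd := fun i hi => EQ_congr (hXQ i hi) pd
  set N : ℝ≥0∞ := 2 ^ Fintype.card D.V with hN
  have hN0 : N ≠ 0 := by rw [hN]; simp
  have hNt : N ≠ ⊤ := by rw [hN]; simp
  set r := rest D.hull (cmap D.X D.O) (fib D) (fun i : I => Q i)
        (fun d => (cf D χ d : ℂ) * pd d) with hr
  have key := Usum_transfer D χ (fun i : I => Q i)
    (fun i j hij => hQ i i.2 j j.2 fun he => hij (Subtype.ext he)) (fun i => hF i i.2)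
    (fun i => χ (c i)) (ω := ω) (fun i => hω i i.2)
  rw [← hr] at key
  have e1 : ∀ i : I, sSQ (cmap D.X D.O) D.X (Q i) pd = N * avg (Q i) (SC (Q i) pd) T := by
    intro i
    rw [← avg_SQ (hXQ i i.2) h1 (faith D (hF i i.2)) pd, ← mul_assoc,
      ENNReal.mul_inv_cancel hN0 hNt, one_mul]
    unfold sSQ
    congr
    exact Subsingleton.elim _ _
  have e2 : ∑ i : I, ENNReal.ofReal (2 * χ (c i) ^ 2) * (4 * sSQ (cmap D.X D.O) D.X (Q i) pd) =
      N * ∑ i ∈ I, ENNReal.ofReal (2 * χ (c i) ^ 2) * (4 * avg (Q i) (SC (Q i) pd) T) := by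
    rw [Finset.mul_sum, ← Finset.sum_coe_sort I]
    refine Finset.sum_congr rfl fun i _ => ?_
    rw [e1]
    ring
  have e3 : ∑ i : I, ENNReal.ofReal (2 * χ (c i) ^ 2 + 2 * ω ^ 2) * EQ D.X (Q i) pd =
      ∑ i ∈ I, (ENNReal.ofReal (2 * χ (c i) ^ 2) + ENNReal.ofReal (2 * ω ^ 2)) *
        EQ (pts T) (Q i) pd := by
    rw [← Finset.sum_coe_sort I]
    refine Finset.sum_congr rfl fun i _ => ?_
    rw [hEQ i i.2, ENNReal.ofReal_add (by positivity) (by positivity)]
  rw [e2, e3, ← mul_add] at key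
  have key2 := (ENNReal.mul_le_mul_iff_right hN0 hNt).1 key
  have key3 := cancel I hA (fun i _ => ENNReal.ofReal_ne_top)
    (fun i hi => by rw [← hEQ i hi]; exact EQ_ne_top D.hull.fin pd) key2
  refine key3.trans ?_
  gcongr ?_ + _ * ?_ + _
  · rw [Finset.mul_sum]
    refine Finset.sum_le_sum fun i _ => ?_
    unfold ms
    gcongr ENNReal.ofReal ?_ * _
    have := hC (c i)
    have h2 : χ (c i) ^ 2 ≤ C ^ 2 := by
      rw [← sq_abs]
      exact pow_le_pow_left₀ (abs_nonneg _) this 2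
    linarith
  · exact sum_EQ_le I Q hQ hU pd

end Vale.Agent.P148.R2.H144
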