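import Vale.Agent.P148.R2.H144.T3d
import Vale.Agent.P148.R2.F.Asm

/-!
# Energy transfer, Poisson layer (P148, module T3), part e

Geometry of the window: discrete domains converging to a quad are good in a window; faces of the
window are small; the grid.
-/

open MeasureTheory Set Metric Topology Filter ProbabilityTheory
open scoped ENNReal NNReal

namespace Vale.Agent.P148.R2.H144

open H592 H184 H203 _root_.P148 _root_.P148.H729
open Vale.Agent.P148.R2.F (Dom Conv)
open Vale.Agent.P148.R2.H219 (tau)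

universe u

/-- `D` is made of the configuration `T` in the window, the sites near `K` are free. -/
structure OKD (K : Set ℂ) (δ R : ℝ) (T : Set Pt) (D : Dom) : Prop where
  win : D.X ∩ ball 0 R = pts T ∩ ball 0 R
  free : ∀ x ∈ D.X, ∀ y ∈ K, dist x y < δ → D.Free x
  bb : ∀ j, ¬ D.Free (D.b j)

theorem okd_of_conv {Q : Quad} {ι : Type} {l : Filter ι} {m : ι → ℝ × Set Pt} {E : ι → Dom}
    (hE : Conv Q l m E) {K : Set ℂ} {δ : ℝ} (hδ : 0 < δ)
    (hK : ∀ y ∈ K, ball y (2 * δ) ⊆ Q.D) (R : ℝ) :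
    ∀ᶠ i in l, OKD K δ R (m i).2 (E i) := by
  obtain ⟨ρ, hρ⟩ := (H219.isBounded_D Q).subset_ball (0 : ℂ)
  filter_upwards [hE.sub, hE.win R, hE.far R, hE.far (ρ + 2), hE.inner δ hδ, hE.outer 1 one_pos]
    with i h1 h2 h3 h4 h5 h6
  refine ⟨?_, ?_, ?_⟩
  · ext z
    constructor
    · rintro ⟨hz, hzR⟩
      refine ⟨?_, hzR⟩
      rcases h1 hz with h | ⟨j, rfl⟩
      · exact h
      · exfalso
        have := h3 j
        have h7 : ‖(E i).b j‖ < R := by simpa using hzR
        linarith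
    · rintro ⟨hz, hzR⟩
      exact ⟨h2 ⟨hz, hzR⟩, hzR⟩
  · intro x hx y hy hxy
    refine h5 x hx (Subset.trans ?_ (hK y hy))
    intro w hw
    rw [mem_ball] at hw ⊢
    have := dist_triangle w x y
    linarith
  · intro j hj
    have h7 := h6 _ hj
    by_cases hne : Q.D.Nonempty
    · obtain ⟨y, hy, hyd⟩ := (infDist_lt_iff hne).1 (lt_of_le_of_lt h7 (show (1 : ℝ) < 2 by norm_num))
      have h8 : ‖y‖ < ρ := by simpa using hρ hy
      have h9 := h4 j
      have h10 : ‖(E i).b j‖ ≤ dist ((E i).b j) y + ‖y‖ := by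
        rw [dist_eq_norm]
        have := norm_add_le ((E i).b j - y) y
        rwa [sub_add_cancel] at this
      linarith
    · exact hne ⟨Q.H 0, 0, by simp, rfl⟩

/-! ### faces -/

theorem cd_mem_sqr {X : Set ℂ} {x : ℂ} {t : ℝ} {d : Dt} (h : LF X (sqr x t) d) :
    cd d ∈ sqr x t := by
  obtain ⟨⟨⟨a1, a2⟩, a3, a4⟩, ⟨⟨b1, b2⟩, b3, b4⟩, ⟨c1, c2⟩, c3, c4⟩ := h.mem
  have e1 : (cd d).re = (d.1.re + d.2.1.re + d.2.2.re) / 3 := by
    have : cd d = ((1 / 3 : ℝ) : ℂ) * (d.1 + d.2.1 + d.2.2) := by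
      unfold cd
      push_cast
      ring
    rw [this, Complex.re_ofReal_mul]
    simp only [Complex.add_re]
    ring
  have e2 : (cd d).im = (d.1.im + d.2.1.im + d.2.2.im) / 3 := by
    have : cd d = ((1 / 3 : ℝ) : ℂ) * (d.1 + d.2.1 + d.2.2) := by
      unfold cd
      push_cast
      ring
    rw [this, Complex.im_ofReal_mul]
    simp only [Complex.add_im]
    ring
  refine ⟨⟨?_, ?_⟩, ?_, ?_⟩
  · rw [e1]; linarith
  · rw [e1]; linarith
  · rw [e2]; linarith
  · rw [e2]; linarith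

theorem dist_cd_le {d : Dt} (h : cr d.1 d.2.1 d.2.2 ≠ 0) : dist (cc d) (cd d) ≤ dist (cc d) d.1 := by
  have h1 := dist_cc1 h
  have h2 := dist_cc2 h
  have e : cc d - cd d = ((1 / 3 : ℝ) : ℂ) * ((cc d - d.1) + (cc d - d.2.1) + (cc d - d.2.2)) := by
    unfold cd
    push_cast
    ring
  rw [dist_eq_norm, e, norm_mul, Complex.norm_real, Real.norm_of_nonneg (by norm_num)]
  have h3 := norm_add₃_le (a := cc d - d.1) (b := cc d - d.2.1) (c := cc d - d.2.2)
  rw [← dist_eq_norm, ← dist_eq_norm, ← dist_eq_norm, ← h1, ← h2] at h3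
  rw [div_mul_eq_mul_div, one_mul, div_le_iff₀ (by norm_num)]
  linarith

/-- Faces with their centre in the window are small. -/
theorem rad_lt {X Y : Set ℂ} {R R₀ s : ℝ} (hs : 0 < s) (hR : R₀ + 2 * s ≤ R)
    (hX : X ∩ ball 0 R = Y ∩ ball 0 R)
    (hnet : ∀ z ∈ closedBall (0 : ℂ) R, ∃ x ∈ Y, dist z x < s) {d : Dt} (hd : LF X univ d)
    (hc : cd d ∈ ball 0 R₀) : dist (cc d) d.1 < s := by
  by_contra hcon
  push Not at hcon
  set r := dist (cc d) d.1 with hr
  have hr0 : 0 < r := hs.trans_le hcon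
  have hcd : dist (cc d) (cd d) ≤ r := dist_cd_le hd.2.1.ne'
  set t : ℝ := s / r with ht
  have ht0 : 0 ≤ t := by positivity
  have ht1 : t ≤ 1 := by rw [ht, div_le_one hr0]; exact hcon
  have htr : t * r = s := by rw [ht]; field_simp
  set z : ℂ := cd d + (t : ℂ) * (cc d - cd d) with hz
  have h1 : dist z (cd d) ≤ s := by
    rw [dist_eq_norm, hz, add_sub_cancel_left, norm_mul, Complex.norm_real,
      Real.norm_of_nonneg ht0, ← dist_eq_norm]
    calc t * dist (cc d) (cd d) ≤ t * r := by gcongr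
      _ = s := htr
  have h2 : dist (cc d) z ≤ r - s := by
    have e : cc d - z = ((1 - t : ℝ) : ℂ) * (cc d - cd d) := by
      rw [hz]
      push_cast
      ring
    rw [dist_eq_norm, e, norm_mul, Complex.norm_real, Real.norm_of_nonneg (by linarith),
      ← dist_eq_norm]
    calc (1 - t) * dist (cc d) (cd d) ≤ (1 - t) * r := by
          exact mul_le_mul_of_nonneg_left hcd (by linarith)
      _ = r - s := by rw [sub_mul, htr, one_mul]
  have h3 : ‖cd d‖ < R₀ := by simpa using hc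
  have h4 : ‖z‖ ≤ ‖cd d‖ + s := by
    have := norm_add_le (z - cd d) (cd d)
    rw [sub_add_cancel, ← dist_eq_norm] at this
    linarith
  obtain ⟨x, hx, hxz⟩ := hnet z (by
    rw [mem_closedBall, dist_zero_right]
    linarith)
  have h5 : x ∈ ball (0 : ℂ) R := by
    rw [mem_ball, dist_zero_right]
    have := norm_add_le (x - z) z
    rw [sub_add_cancel, ← dist_eq_norm, dist_comm] at this
    linarith
  have h6 : x ∈ X := by
    have : x ∈ Y ∩ ball 0 R := ⟨hx, h5⟩
    rw [← hX] at this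
    exact this.1
  have h7 := hd.2.2.2 x h6
  have h8 := dist_triangle (cc d) z x
  linarith

/-! ### the grid -/

theorem sqr_disjoint {l : ℝ} (hl : 0 < l) {z w : ℤ × ℤ} (h : z ≠ w) :
    Disjoint (sqr (H291.gp l z) l) (sqr (H291.gp l w) l) := by
  have key : ∀ (y : ℝ) (a b : ℤ), l * a < y → y < l * a + l → l * b < y → y < l * b + l →
      a = b := by
    intro y a b h1 h2 h3 h4
    rcases lt_trichotomy a b with hlt | heq | hgt
    · have h5 : (a : ℝ) + 1 ≤ b := by exact_mod_cast hlt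
      have := mul_le_mul_of_nonneg_left h5 hl.le
      linarith
    · exact heq
    · have h5 : (b : ℝ) + 1 ≤ a := by exact_mod_cast hgt
      have := mul_le_mul_of_nonneg_left h5 hl.le
      linarith
  rw [Set.disjoint_left]
  rintro y ⟨⟨a1, a2⟩, a3, a4⟩ ⟨⟨b1, b2⟩, b3, b4⟩
  exact h (Prod.ext (key y.re z.1 w.1 a1 a2 b1 b2) (key y.im z.2 w.2 a3 a4 b3 b4))

theorem dist_lt_of_mem_sqr {x : ℂ} {t : ℝ} {z w : ℂ} (hz : z ∈ sqr x t) (hw : w ∈ sqr x t) :
    dist z w < 2 * t := by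
  obtain ⟨⟨a1, a2⟩, a3, a4⟩ := hz
  obtain ⟨⟨b1, b2⟩, b3, b4⟩ := hw
  rw [dist_eq_norm]
  refine lt_of_le_of_lt (Complex.norm_le_abs_re_add_abs_im _) ?_
  rw [Complex.sub_re, Complex.sub_im]
  have h1 : |z.re - w.re| < t := by rw [abs_lt]; constructor <;> linarith
  have h2 : |z.im - w.im| < t := by rw [abs_lt]; constructor <;> linarith
  linarith

theorem dist_corner_le {x : ℂ} {t : ℝ} {z : ℂ} (hz : z ∈ sqr x t) : dist z x ≤ 2 * t :=
  mem_closedBall.1 (sqr_subset_closedBall x t hz)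

open Classical in
/-- The squares which meet `K`. -/
noncomputable def grd (K : Set ℂ) (l R : ℝ) : Finset (ℤ × ℤ) :=
  (H291.win l 0 (R + 2 * l)).filter fun z => (sqr (H291.gp l z) l ∩ K).Nonempty

theorem mem_grd {K : Set ℂ} {l R : ℝ} (hl : 0 < l) (hK : K ⊆ ball 0 R) {z : ℤ × ℤ} :
    z ∈ grd K l R ↔ (sqr (H291.gp l z) l ∩ K).Nonempty := by
  classical
  unfold grd
  rw [Finset.mem_filter]
  refine ⟨fun h => h.2, fun h => ⟨?_, h⟩⟩
  obtain ⟨w, hw, hwK⟩ := h
  refine H291.mem_win hl ?_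
  have h1 := dist_corner_le hw
  have h2 : dist w 0 < R := hK hwK
  have := dist_triangle_left (H291.gp l z) 0 w
  linarith

end Vale.Agent.P148.R2.H144
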