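import Vale.Agent.P148.R2.H144.T3e
import Vale.Agent.P148.R2.H203.T6

/-!
# Energy transfer, Poisson layer (P148, module T3), part f

`lln_of_ME`: if squares have asymptotically no missing energy then the weighted sums of the discrete
three-arc domains converging to a quad tend to zero.
-/

open MeasureTheory Set Metric Topology Filter ProbabilityTheory
open scoped ENNReal NNReal

namespace Vale.Agent.P148.R2.H144

open H592 H184 H203 _root_.P148 _root_.P148.H729
open Vale.Agent.P148.R2.F (Dom Conv)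
open Vale.Agent.P148.R2.H219 (tau)

universe u

/-- The deterministic part. -/
theorem dom_bound {T : Set Pt} {χ : ℂ → ℝ} {K : Set ℂ} (hK : ∀ z, χ z ≠ 0 → z ∈ K) {C : ℝ}
    (hC : ∀ z, |χ z| ≤ C) {L : ℝ≥0} (hL : LipschitzWith L χ) {δ R₀ R l s ρ : ℝ}
    (hKR : K ⊆ ball 0 R₀) (hl : 0 < l) (hlδ : 2 * l ≤ δ) (hlR : R₀ + 2 * l ≤ R) (hs : 0 < s)
    (hsR : R₀ + 2 * s ≤ R) (hnet : ∀ z ∈ closedBall (0 : ℂ) R, ∃ x ∈ pts T, dist z x < s)
    (hT : Generic T (bfar ρ)) (hρ : 0 < ρ) (hρR : R ≤ ρ / 2) (h1 : OneCol T) {D : Dom}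
    (hD : OKD K δ R T D) :
    ENNReal.ofReal (‖D.Usum χ‖ ^ 2) ≤
      ENNReal.ofReal (2 * C ^ 2) * ∑ z ∈ grd K l R₀, ms (sqr (H291.gp l z) l) pd T +
      ENNReal.ofReal (2 * (L * (2 * l)) ^ 2) * EQ (pts T) (ball 0 R) pd +
      ENNReal.ofReal (C ^ 2) * RS pd l R T := by
  classical
  have hU : ∀ z ∈ grd K l R₀, sqr (H291.gp l z) l ⊆ ball 0 R := by
    intro z hz y hy
    obtain ⟨w, hw, hwK⟩ := (mem_grd hl hKR).1 hz
    have h2 := dist_lt_of_mem_sqr hy hw
    have h3 : dist w 0 < R₀ := hKR hwK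
    rw [mem_ball]
    have := dist_triangle y w 0
    linarith
  refine (Usum_le h1 D χ hC (grd K l R₀) (fun z => sqr (H291.gp l z) l)
    (fun z _ w _ h => sqr_disjoint hl h) hU hD.win ?_ (fun z => H291.gp l z)
    (ω := L * (2 * l)) ?_ ?_).trans ?_
  · intro z hz x hx hxs
    obtain ⟨w, hw, hwK⟩ := (mem_grd hl hKR).1 hz
    exact hD.free x hx w hwK ((dist_lt_of_mem_sqr hxs hw).trans_le hlδ)
  · intro z hz d hd
    have h2 := cd_mem_sqr hd
    have h3 := dist_corner_le h2
    rw [← Real.dist_eq]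
    exact (hL.dist_le_mul _ _).trans (by gcongr)
  · intro z hz
    exact four_avg_le hT h1 hρ ((hU z hz).trans (ball_subset_ball hρR)) tau_root pd_rt
  · gcongr
    refine RSdom D.hull (cmap D.X D.O) (fib D) (grd K l R₀) pd (cf D χ) ?_ ?_ ?_
    · intro d
      unfold cf
      split_ifs
      · exact hC _
      · rw [abs_zero]
        exact (abs_nonneg _).trans (hC 0)
    · intro q hq
      have h2 : Fr D (dt q) := by
        by_contra h
        apply hq
        unfold cf
        rw [if_neg h]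
      have h3 : cd (dt q) ∈ K := by
        apply hK
        intro h
        apply hq
        unfold cf
        rw [if_pos h2, h]
      have h4 : LF D.X univ (dt q) := by
        rw [LF_univ]
        rcases th_Tl q with h | ⟨j, hj, -⟩
        · exact h
        · exfalso
          exact hD.bb (j + 1) (hj ▸ h2.1)
      have h5 := rad_lt hs hsR hD.win hnet h4 (hKR h3)
      have h6 := dist_cd_le h4.2.1.ne'
      have h7 : ‖cd (dt q)‖ < R₀ := by simpa using hKR h3
      have h8 : ‖cc (dt q)‖ < R₀ + s := by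
        have := norm_add_le (cc (dt q) - cd (dt q)) (cd (dt q))
        rw [sub_add_cancel, ← dist_eq_norm] at this
        linarith
      have h9 : LF D.X (ball 0 R) (dt q) := by
        refine ⟨h4.1, h4.2.1, ?_, h4.2.2.2⟩
        intro y hy
        rw [mem_closedBall] at hy
        rw [mem_ball, dist_zero_right]
        have := norm_add_le (y - cc (dt q)) (cc (dt q))
        rw [sub_add_cancel, ← dist_eq_norm] at this
        linarith
      refine ⟨(h9.congr hD.win).mono (subset_univ _), ?_⟩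
      rw [mem_ball, dist_zero_right]
      linarith
    · intro q z hq hz
      have h2 : Fr D (dt q) := by
        by_contra h
        apply hq
        unfold cf
        rw [if_neg h]
      have h3 : cd (dt q) ∈ K := by
        apply hK
        intro h
        apply hq
        unfold cf
        rw [if_pos h2, h]
      have h4 : z ∈ grd K l R₀ := (mem_grd hl hKR).2 ⟨cd (dt q), cd_mem_sqr hz, h3⟩
      refine ⟨h4, hz.congr ?_⟩
      rw [← inter_eq_self_of_subset_right (hU z h4), ← inter_assoc, ← inter_assoc, hD.win]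

theorem ofReal_mul_le {a b η : ℝ} {x : ℝ≥0∞} (hx : x ≤ ENNReal.ofReal b) (ha : 0 ≤ a)
    (hab : a * b ≤ η) : ENNReal.ofReal a * x ≤ ENNReal.ofReal η := by
  calc ENNReal.ofReal a * x ≤ ENNReal.ofReal a * ENNReal.ofReal b := by gcongr
    _ = ENNReal.ofReal (a * b) := (ENNReal.ofReal_mul ha).symm
    _ ≤ _ := ENNReal.ofReal_le_ofReal hab

/-- The weighted sums are small, uniformly over all domains which are good in the window. -/
theorem whp_Usum (hME : ME.{u} pd) {χ : ℂ → ℝ} (hs : ContDiff ℝ 1 χ) (hc : HasCompactSupport χ)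
    {δ : ℝ} (hδ : 0 < δ) : ∃ R : ℝ, ∀ η : ℝ, 0 < η → ∀ᶠ m in F.whp.{u},
      ∀ D : Dom, OKD (tsupport χ) δ R m.2 D → ‖D.Usum χ‖ ≤ η := by
  classical
  obtain ⟨R₁, hR₁⟩ := hc.isCompact.isBounded.subset_ball (0 : ℂ)
  set R₀ : ℝ := max R₁ 1 with hR₀
  have hKR : tsupport χ ⊆ ball 0 R₀ := hR₁.trans (ball_subset_ball (le_max_left _ _))
  have hR₀1 : 1 ≤ R₀ := le_max_right _ _
  obtain ⟨C, hC⟩ := hc.exists_bound_of_continuous hs.continuous
  have hC' : ∀ z, |χ z| ≤ C := fun z => by simpa using hC z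
  have hC0 : 0 ≤ C := (abs_nonneg _).trans (hC' 0)
  obtain ⟨L, hL⟩ := ContDiff.lipschitzWith_of_hasCompactSupport hc hs one_ne_zero
  have hK : ∀ z, χ z ≠ 0 → z ∈ tsupport χ := fun z hz => subset_tsupport χ hz
  refine ⟨R₀ + 2, fun η hη => ?_⟩
  set R := R₀ + 2 with hR
  rw [F.eventually_whp]
  intro Ω _ P _ S hS
  rw [ENNReal.tendsto_nhds_zero]
  intro θ₀ hθ₀
  -- a real threshold
  obtain ⟨θ, hθ, hθle⟩ : ∃ θ : ℝ, 0 < θ ∧ ENNReal.ofReal θ ≤ θ₀ := by
    by_cases h : θ₀ = ⊤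
    · exact ⟨1, one_pos, h ▸ le_top⟩
    · exact ⟨θ₀.toReal, ENNReal.toReal_pos hθ₀.ne' h, by rw [ENNReal.ofReal_toReal h]⟩
  have hKK := KK_nonneg 4
  set M : ℝ := KK 4 * R ^ 2 / (θ / 2) + 1 with hM
  have hM0 : 0 < M := by positivity
  -- the side of the squares
  have hlim : Tendsto (fun l : ℝ => 2 * (L * (2 * l)) ^ 2 * M) (𝓝[>] 0) (𝓝 0) := by
    have : Tendsto (fun l : ℝ => 2 * (L * (2 * l)) ^ 2 * M) (𝓝 0)
        (𝓝 (2 * ((L : ℝ) * (2 * 0)) ^ 2 * M)) := by
      apply Continuous.tendsto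
      fun_prop
    rw [show (2 * ((L : ℝ) * (2 * 0)) ^ 2 * M) = 0 by ring] at this
    exact this.mono_left nhdsWithin_le_nhds
  obtain ⟨l, hl1, hl2, hl0⟩ : ∃ l : ℝ, 2 * (L * (2 * l)) ^ 2 * M < η ^ 2 / 3 ∧
      2 * l < min δ 2 ∧ 0 < l := by
    have h1 := hlim.eventually_lt_const (show 0 < η ^ 2 / 3 by positivity)
    have h2 : ∀ᶠ l : ℝ in 𝓝[>] 0, 2 * l < min δ 2 := by
      have h3 : (0 : ℝ) < min δ 2 / 2 := by
        have : 0 < min δ 2 := lt_min hδ two_pos
        positivity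
      filter_upwards [Ioo_mem_nhdsGT h3] with l hl
      linarith [hl.2]
    obtain ⟨l, hl⟩ := (h1.and (h2.and self_mem_nhdsWithin)).exists
    exact ⟨l, hl.1, hl.2.1, hl.2.2⟩
  set η₁ : ℝ := η ^ 2 / (6 * (C ^ 2 + 1)) with hη₁
  have hη₁0 : 0 < η₁ := by positivity
  set ρ : ℝ := 2 * R with hρ
  -- the good event
  have hgood : ∀ᶠ m in F.whp.{u},
      (∑ z ∈ grd (tsupport χ) l R₀, ms (sqr (H291.gp l z) l) pd m.2 ≤ ENNReal.ofReal η₁) ∧
      RS pd l R m.2 ≤ ENNReal.ofReal η₁ ∧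
      (∀ z ∈ closedBall (0 : ℂ) R, ∃ x ∈ pts m.2, dist z x < 1) ∧
      Generic m.2 (bfar ρ) ∧ OneCol m.2 := by
    filter_upwards [whp_ms wt_pd hME hl0 (grd (tsupport χ) l R₀) hη₁0, rest_whp wt_pd hl0 R hη₁0,
      F.whp_net R one_pos, F.whp_generic (bfar ρ),
      F.whp_of_ae (A := fun _ T => OneCol T) (fun ε _ Ω _ P _ S hS =>
        Eventually.of_forall fun ω => hS.oneColour ω)] with m h1 h2 h3 h4 h5
    exact ⟨h1, h2, h3, h4, h5⟩
  rw [F.eventually_whp] at hgood
  have hg := hgood Ω P S hS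
  rw [ENNReal.tendsto_nhds_zero] at hg
  have hg' := hg (ENNReal.ofReal (θ / 2)) (ENNReal.ofReal_pos.2 (by positivity))
  have hεR : ∀ᶠ ε : ℝ in 𝓝[>] 0, ε < R := by
    filter_upwards [Ioo_mem_nhdsGT (show (0 : ℝ) < R by positivity)] with ε hε using hε.2
  filter_upwards [hg', hεR, self_mem_nhdsWithin] with ε hε1 hε2 hε0
  have hε0' : (0 : ℝ) < ε := hε0
  have hM1 := EQ_prob (hS ε hε0') wt_pd hε0' (coe_inten hε0') hε2.le hM0
  have hM2 : KK 4 * R ^ 2 / M ≤ θ / 2 := by
    rw [div_le_iff₀ hM0, hM, mul_add, mul_div_cancel₀ _ (by positivity)]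
    linarith
  refine le_trans ?_ hθle
  calc P ε {ω | ¬ ∀ D : Dom, OKD (tsupport χ) δ R (ε, S ε ω).2 D → ‖D.Usum χ‖ ≤ η}
      ≤ P ε ({ω | ¬ ((∑ z ∈ grd (tsupport χ) l R₀, ms (sqr (H291.gp l z) l) pd (ε, S ε ω).2 ≤
          ENNReal.ofReal η₁) ∧ RS pd l R (ε, S ε ω).2 ≤ ENNReal.ofReal η₁ ∧
          (∀ z ∈ closedBall (0 : ℂ) R, ∃ x ∈ pts (ε, S ε ω).2, dist z x < 1) ∧
          Generic (ε, S ε ω).2 (bfar ρ) ∧ OneCol (ε, S ε ω).2)} ∪
          {ω | ¬ EQ (pts (S ε ω)) (ball 0 R) pd ≤ ENNReal.ofReal M}) := by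
        refine measure_mono fun ω hω => ?_
        by_contra hcon
        simp only [mem_union, mem_ofPred_eq, not_or, not_not] at hcon
        obtain ⟨⟨g1, g2, g3, g4, g5⟩, g6⟩ := hcon
        apply hω
        intro D hD
        have hρR : R ≤ ρ / 2 := by rw [hρ]; linarith
        have key := dom_bound hK hC' hL hKR hl0 (hl2.le.trans (min_le_left _ _))
          (by have := hl2.trans_le (min_le_right _ _); linarith) one_pos
          (by linarith) g3 g4 (by positivity) hρR g5 hD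
        have b1 : ENNReal.ofReal (2 * C ^ 2) * ∑ z ∈ grd (tsupport χ) l R₀,
            ms (sqr (H291.gp l z) l) pd (S ε ω) ≤ ENNReal.ofReal (η ^ 2 / 3) := by
          refine ofReal_mul_le g1 (by positivity) ?_
          rw [hη₁, mul_div_assoc', div_le_iff₀ (by positivity)]
          nlinarith [sq_nonneg η, sq_nonneg C]
        have b2 : ENNReal.ofReal (2 * (L * (2 * l)) ^ 2) * EQ (pts (S ε ω)) (ball 0 R) pd ≤
            ENNReal.ofReal (η ^ 2 / 3) := ofReal_mul_le g6 (by positivity) hl1.le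
        have b3 : ENNReal.ofReal (C ^ 2) * RS pd l R (S ε ω) ≤ ENNReal.ofReal (η ^ 2 / 3) := by
          refine ofReal_mul_le g2 (by positivity) ?_
          rw [hη₁, mul_div_assoc', div_le_iff₀ (by positivity)]
          nlinarith [sq_nonneg η, sq_nonneg C]
        have b4 : ENNReal.ofReal (‖D.Usum χ‖ ^ 2) ≤ ENNReal.ofReal (η ^ 2) := by
          refine key.trans ((add_le_add (add_le_add b1 b2) b3).trans (le_of_eq ?_))
          rw [← ENNReal.ofReal_add (by positivity) (by positivity),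
            ← ENNReal.ofReal_add (by positivity) (by positivity)]
          congr 1
          ring
        have b5 := (ENNReal.ofReal_le_ofReal_iff (by positivity)).1 b4
        exact (pow_le_pow_iff_left₀ (norm_nonneg _) hη.le two_ne_zero).1 b5
    _ ≤ ENNReal.ofReal (θ / 2) + ENNReal.ofReal (θ / 2) := by
        refine (measure_union_le _ _).trans (add_le_add hε1 ?_)
        exact hM1.trans (ENNReal.ofReal_le_ofReal hM2)
    _ = ENNReal.ofReal θ := by
        rw [← ENNReal.ofReal_add (by positivity) (by positivity), add_halves]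

/-- **T3.** No missing energy implies the law of large numbers of the architect file. -/
theorem lln_of_ME (hME : ME.{u} pd) : F.LLNStmt.{u} := by
  intro Q ι l m E hm hE χ hχ
  rw [Metric.tendsto_nhds]
  intro η hη
  obtain ⟨δ, hδ, hKδ⟩ := hχ.compact.isCompact.exists_thickening_subset_open (Half.isOpen_D Q)
    hχ.supp
  obtain ⟨R, hR⟩ := whp_Usum hME (hχ.smooth.of_le (by exact_mod_cast le_top)) hχ.compact
    (show 0 < δ / 2 by positivity)
  have h1 := hm.eventually (hR (η / 2) (by positivity))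
  have h2 := okd_of_conv hE (K := tsupport χ) (show 0 < δ / 2 by positivity) (fun y hy => by
    rw [mul_div_cancel₀ _ (two_ne_zero)]
    exact (ball_subset_thickening hy δ).trans hKδ) R
  filter_upwards [h1, h2] with i h3 h4
  rw [dist_zero_right]
  have := h3 (E i) h4
  linarith

end Vale.Agent.P148.R2.H144
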